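import Claimed.Agent.R257.TR.NJ.Inst

/-!
# R257 / TR / NJ / Main : `NJFin`      (architect helper53)
Leaves L-TR-NJ-N1 (`tr_nj_num`), N2 (`tr_nj_big_ev`), N3 (`tr_nj_fin`).
-/

set_option autoImplicit false

namespace Claimed.Agent.R257.TR

open Claimed.Agent.R255 Claimed.Agent.R257 MeasureTheory Filter Topology
open scoped BigOperators ENNReal
open Classical

variable {n : ℕ}

/-- closed form of `njRhs` for a positive scale -/
theorem tr_nj_num_eq (n : ℕ) (R₀ c₁ e b L ε : ℝ) (hL : 0 < L) :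
    njRhs n R₀ c₁ (e / 6) e b L ε = 2 * (2 * R₀ + 4) ^ n * 3 ^ (n + 1) * L ^ (-(e * b / 2))
      + 2 * (2 * R₀ + 4) ^ n * 2 ^ (n + 1) * L ^ (((n : ℝ) * e + e / 2 - c₁ / 3) * b + ε) := by
  have e1 : L ^ ((1 / 2 - e) * b) * (L ^ (2 * (e / 6) * b) * L ^ (-(b / 2 - e / 6 * b))) = L ^ (-(e * b / 2)) := by
    rw [← Real.rpow_add hL, ← Real.rpow_add hL]
    congr 1
    ring
  have e2 : L ^ ((1 / 2 - e) * b) * ((L ^ (e * b)) ^ (n + 1) * L ^ (2 * (e / 6) * b) * L ^ (-(b / 2 - e / 6 * b)) * L ^ (-c₁ * (b / 3) + ε))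
      = L ^ (((n : ℝ) * e + e / 2 - c₁ / 3) * b + ε) := by
    rw [← Real.rpow_natCast (L ^ (e * b)) (n + 1), ← Real.rpow_mul hL.le, ← Real.rpow_add hL, ← Real.rpow_add hL, ← Real.rpow_add hL,
      ← Real.rpow_add hL]
    congr 1
    push_cast
    ring
  rw [← e1, ← e2]
  unfold njRhs
  rw [mul_pow]
  ring

/-- L-TR-NJ-N1 (~200 l., real analysis).   For `L ≥ 1`: `njRhs = C₁ L^{(3η - e) b} + C₂ L^{(n e + 3η - c₁/3) b + ε}` (`Real.rpow_add`, `Real.mul_rpow`, `Real.rpow_natCast`), `C₁ = 2 (2R₀+4)ⁿ 3^{n+1}`, `C₂ = 2 (2R₀+4)ⁿ 2^{n+1}`.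
`3η - e = -e/2`;   `n e + 3η - c₁/3 ≤ c₁/6 + c₁/12 - c₁/3 = -c₁/12`;   eventually `ε ≤ c₁ b/24`.   `L^{-γ} → 0` (`tendsto_rpow_neg_atTop`), squeeze. -/
theorem tr_nj_num (n : ℕ) (hn : 1 ≤ n) (R₀ c₁ e b : ℝ) (hR : 0 ≤ R₀) (hc : 0 < c₁) (he : 0 < e) (he' : e ≤ c₁ / (6 * n)) (hb : 0 < b) (Ls εs : ℕ → ℝ)
    (hL : Tendsto Ls atTop atTop) (hε : Tendsto εs atTop (𝓝 0)) : Tendsto (fun m => njRhs n R₀ c₁ (e / 6) e b (Ls m) (εs m)) atTop (𝓝 0) := by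
  have hn1 : (1 : ℝ) ≤ n := by exact_mod_cast hn
  have hn0 : (0 : ℝ) < n := by linarith
  have hne : (n : ℝ) * e ≤ c₁ / 6 := by
    have h1 : e * (6 * n) ≤ c₁ := (le_div_iff₀ (by positivity)).1 he'
    linarith
  have hee : e ≤ c₁ / 6 := by nlinarith
  have hub : Tendsto (fun m => 2 * (2 * R₀ + 4) ^ n * 3 ^ (n + 1) * (Ls m) ^ (-(e * b / 2))
      + 2 * (2 * R₀ + 4) ^ n * 2 ^ (n + 1) * (Ls m) ^ (-(c₁ * b / 24))) atTop (𝓝 0) := by
    have h1 : Tendsto (fun m => (Ls m) ^ (-(e * b / 2))) atTop (𝓝 0) :=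
      (tendsto_rpow_neg_atTop (by positivity : 0 < e * b / 2)).comp hL
    have h2 : Tendsto (fun m => (Ls m) ^ (-(c₁ * b / 24))) atTop (𝓝 0) :=
      (tendsto_rpow_neg_atTop (by positivity : 0 < c₁ * b / 24)).comp hL
    simpa using (h1.const_mul (2 * (2 * R₀ + 4) ^ n * 3 ^ (n + 1))).add (h2.const_mul (2 * (2 * R₀ + 4) ^ n * 2 ^ (n + 1)))
  refine squeeze_zero' ?_ ?_ hub
  · filter_upwards [hL.eventually_ge_atTop 1] with m hm
    have hL0 : 0 < Ls m := by linarith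
    rw [tr_nj_num_eq n R₀ c₁ e b (Ls m) (εs m) hL0]
    positivity
  · filter_upwards [hL.eventually_ge_atTop 1, hε.eventually (Iic_mem_nhds (by positivity : 0 < c₁ * b / 24))] with m hm hεm
    have hL0 : 0 < Ls m := by linarith
    have hεm' : εs m ≤ c₁ * b / 24 := hεm
    rw [tr_nj_num_eq n R₀ c₁ e b (Ls m) (εs m) hL0]
    have hexp : ((n : ℝ) * e + e / 2 - c₁ / 3) * b + εs m ≤ -(c₁ * b / 24) := by
      have h3 : ((n : ℝ) * e + e / 2 - c₁ / 3) * b ≤ (-(c₁ / 12)) * b :=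
        mul_le_mul_of_nonneg_right (by linarith) hb.le
      linarith
    have h4 : (Ls m) ^ (((n : ℝ) * e + e / 2 - c₁ / 3) * b + εs m) ≤ (Ls m) ^ (-(c₁ * b / 24)) :=
      Real.rpow_le_rpow_of_exponent_le hm hexp
    have h5 : 0 ≤ 2 * (2 * R₀ + 4) ^ n * 2 ^ (n + 1) := by positivity
    have := mul_le_mul_of_nonneg_left h4 h5
    linarith

/-- L-TR-NJ-N2 (~60 l.): `tendsto_rpow_atTop`, `Tendsto.eventually_ge_atTop`, `hε.eventually (ge_mem_nhds …)`/`eventually_le_of_tendsto_lt` -/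
theorem tr_nj_big_ev (M : ℕ → TModel n) {R₀ c₁ Cτ : ℝ} (h : TSeqOk M R₀ c₁ Cτ) (b : ℚ) (hb : 0 < b) : ∀ᶠ m in atTop, NjBig R₀ (M m) b := by
  have hb' : (0 : ℝ) < (b : ℝ) / 12 := by
    have : (0 : ℝ) < (b : ℝ) := by exact_mod_cast hb
    positivity
  have h1 : ∀ᶠ m in atTop, (M m).ε ≤ (b : ℝ) / 12 := h.eps.eventually (Iic_mem_nhds hb')
  have h2 : ∀ᶠ m in atTop, 8 * njC5 n R₀ + 8 ≤ (M m).L ^ ((b : ℝ) / 12) :=
    ((tendsto_rpow_atTop hb').comp h.L_top).eventually_ge_atTop _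
  filter_upwards [h1, h2] with m h1 h2
  exact ⟨h1, h2⟩

/-- **EXIT.**   L-TR-NJ-N3 (~120 l., glue).   Choose a rational `0 < e < min (1/2) (c₁/(6n))` (`exists_rat_btwn`), `η = e/6`.   `prU (UNJ η s b) m = (M m).law.pr (fun ω => (M m).sys.vec ω ∈ UNJ η s b) =: p_m ≥ 0` (unfold `VSeq.prU`, `iSeqV`, `tSys`; `tr_info_pr_nonneg`);
eventually `p_m² ≤ njRhs …` (`tr_nj_one`, `tr_nj_big_ev`), `njRhs → 0` (`tr_nj_num`), so `p_m² → 0`, `p_m → 0` (`p_m = √(p_m²)`, continuity of `√`); `Tendsto.mono_left _ uf_le_atTop`. -/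
theorem tr_nj_fin (hn : 2 ≤ n) (M : ℕ → TModel n) {R₀ c₁ Cτ : ℝ} (hc : 0 < c₁) (h : TSeqOk M R₀ c₁ Cτ) : NJFin M := by
  have hn0 : (0 : ℝ) < n := by
    have : 0 < n := by omega
    exact_mod_cast this
  have hR : 0 ≤ R₀ := tr_nj_R0 (M 0) (h.ok 0)
  obtain ⟨e, he0, he1⟩ := exists_rat_btwn (show (0 : ℝ) < min (1 / 2) (c₁ / (6 * n)) from lt_min (by norm_num) (by positivity))
  have he0' : (0 : ℚ) < e := by exact_mod_cast he0
  have he2 : (e : ℝ) < 1 / 2 := lt_of_lt_of_le he1 (min_le_left _ _)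
  have he2' : e < 1 / 2 := by
    have : (e : ℝ) < ((1 / 2 : ℚ) : ℝ) := by push_cast; exact he2
    exact_mod_cast this
  have he3 : (e : ℝ) ≤ c₁ / (6 * n) := (lt_of_lt_of_le he1 (min_le_right _ _)).le
  refine ⟨(e : ℝ) / 6, by positivity, fun s b hb => ?_⟩
  have hb0 : (0 : ℝ) < (b : ℝ) := by exact_mod_cast hb.2.1
  refine Tendsto.mono_left ?_ uf_le_atTop
  have hp : (iSeqV (tSys M)).prU (UNJ ((e : ℝ) / 6) s b)
      = fun m => (M m).law.pr (fun ω => (M m).sys.vec ω ∈ UNJ ((e : ℝ) / 6) s b) := rfl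
  rw [hp]
  have hnum := tr_nj_num n (by omega) R₀ c₁ e b hR hc he0 he3 hb0 (fun m => (M m).L) (fun m => (M m).ε) h.L_top h.eps
  have hsq : Tendsto (fun m => ((M m).law.pr (fun ω => (M m).sys.vec ω ∈ UNJ ((e : ℝ) / 6) s b)) ^ 2) atTop (𝓝 0) := by
    refine squeeze_zero' (Eventually.of_forall fun m => sq_nonneg _) ?_ hnum
    filter_upwards [tr_nj_big_ev M h b hb.2.1] with m hB
    exact tr_nj_one hn (M m) (h.ok m) ((e : ℝ) / 6) hb he0' he2' hB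
  have hsqrt := (Real.continuous_sqrt.tendsto 0).comp hsq
  rw [Real.sqrt_zero] at hsqrt
  refine hsqrt.congr fun m => ?_
  exact Real.sqrt_sq (tr_info_pr_nonneg _ _)

end Claimed.Agent.R257.TR
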