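import Claimed.Agent.R257.TR.Good

/-!
# R257 / TR / NJ / Defs : NO FULL-TO-EMPTY BLOCK (H Lemma t:no-jump, transverse.tex l.803-915), finite part.   DEFINITIONS + PLAN        (architect helper53; captain TR helper217)

EXIT: `tr_nj_fin : 2 ≤ n → 0 < c₁ → TSeqOk M R₀ c₁ Cτ → NJFin M`   (`NJ/Main.lean`).      Prefix `tr_nj_`, `Nj`.
NO polynomial partitioning, NO Wongkew (report 832 X2, X3): plain DYADIC grids.   One model `M` (scale `L`, error `ε`), one rational block `[s, s+b]`, `K = L^b`.   Four nested dyadic grids (`M.cl r x` = cell of the point `x` at exponent `r`):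
   parent `r = s`,   GRID cell `r = s + b/2 - e b` (`0 < e < 1/2` rational, small),   MID cell `r = s + b/2`,   END cell `r = s + b`.
`j0 x T = P(X = x, T_0 = T)`.   SUCCESS `NjS η s b x T` = the event `vec ω ∈ UNJ η s b` written with masses (`NJ/Marg.lean`):
   `p_c(end) ∈ K^{-(n+1)/2 ∓ η}`,   `p_c(mid) < K^{-(n+1)/2 + η}`,   `q_T(end) < K^{-1/2 + η}`,   `κ 0 x T > 0`.
`(T, x)` is GOOD (`NjGd`) if the END cell of `x` contains a point `x₀` with `NjS x₀ T` ("goodness by existence").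
PAIR COUNT (abstract: `NJ/Pairs.lean`):   `S = ∑_T ∑_{x,x' good, same parent, same GRID cell} j0 x T · j0 x' T / P(T, parent)`.
   `p² ≤ N S` (`N` = number of GRID cells of a parent met by one tube `≲ K^{1/2-e}`; Cauchy-Schwarz);
   NEAR pairs (equal or adjacent MID cells): `≤ M₁ m₁`,  `M₁ = 3^{n+1} K^{2η}` good END cells, each of `q_T`-mass `≤ m₁ = K^{-1/2+η}`;
   FAR pairs: two points of the tube at distance `≳ K^{-1/2}` (relative) fix its frequency up to `L^{-b/2+ε} ≤ L^{-b/3}`: strip law: `≤ M₂ m₁ κc`,  `M₂ = (2K^e)^{n+1} K^{2η}`,  `κc = L^{-c₁ b/3 + ε}`.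
   So `p² ≲ K^{3η - e} + K^{n e + 3η - c₁/3} L^ε → 0`   for `e ≤ c₁/(6n)`, `η = e/6`.
-/

set_option autoImplicit false

namespace Claimed.Agent.R257.TR

open Claimed.Agent.R255 Claimed.Agent.R257 MeasureTheory Filter Topology
open scoped BigOperators ENNReal InnerProductSpace
open Classical

variable {n : ℕ}

/-- the cell of a point at exponent `r` -/
noncomputable def TModel.cl (M : TModel n) (r : ℚ) (x : M.π) : (Fin n → ℤ) × ℤ := cellL (sc M.L r) (M.pos x)

/-- `P(X ∈ E)` -/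
noncomputable def TModel.pm (M : TModel n) (E : M.π → Prop) : ℝ := (Fintype.card M.π : ℝ)⁻¹ * ((Finset.univ.filter E).card : ℝ)

/-- `P(X = x, T_0 = T)` -/
noncomputable def TModel.j0 (M : TModel n) (x : M.π) (T : M.τ) : ℝ := (Fintype.card M.π : ℝ)⁻¹ * M.κ 0 x T

/-- `P(X ∈ E, T_0 = T)` -/
noncomputable def TModel.jm (M : TModel n) (T : M.τ) (E : M.π → Prop) : ℝ := ∑ x with E x, M.j0 x T

/-- success of the test at the sample `(x, T)`, in terms of masses -/
structure NjS (M : TModel n) (η : ℝ) (s b : ℚ) (x : M.π) (T : M.τ) : Prop where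
  pos : 0 < M.κ 0 x T
  e_lo : M.L ^ (-(((n : ℝ) + 1) * b / 2 + η * b)) * M.pm (fun x' => M.cl s x' = M.cl s x)
    < M.pm (fun x' => M.cl (s + b) x' = M.cl (s + b) x ∧ M.cl s x' = M.cl s x)
  e_hi : M.pm (fun x' => M.cl (s + b) x' = M.cl (s + b) x ∧ M.cl s x' = M.cl s x)
    < M.L ^ (-(((n : ℝ) + 1) * b / 2 - η * b)) * M.pm (fun x' => M.cl s x' = M.cl s x)
  m_hi : M.pm (fun x' => M.cl (s + b / 2) x' = M.cl (s + b / 2) x ∧ M.cl s x' = M.cl s x)
    < M.L ^ (-(((n : ℝ) + 1) * b / 2 - η * b)) * M.pm (fun x' => M.cl s x' = M.cl s x)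
  q_hi : M.jm T (fun x' => M.cl (s + b) x' = M.cl (s + b) x ∧ M.cl s x' = M.cl s x)
    < M.L ^ (-((b : ℝ) / 2 - η * b)) * M.jm T (fun x' => M.cl s x' = M.cl s x)

/-- goodness by existence -/
def NjGd (M : TModel n) (η : ℝ) (s b : ℚ) (T : M.τ) (x : M.π) : Prop := ∃ x₀, M.cl (s + b) x₀ = M.cl (s + b) x ∧ NjS M η s b x₀ T

/-- equal or adjacent cells -/
def CAdj (μ μ' : (Fin n → ℤ) × ℤ) : Prop := (∀ i, |μ.1 i - μ'.1 i| ≤ 1) ∧ |μ.2 - μ'.2| ≤ 1

/-- the exponent of the GRID cells -/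
def njg (s b e : ℚ) : ℚ := s + b / 2 - e * b

/-- the geometric constant of the far pairs -/
noncomputable def njC5 (n : ℕ) (R₀ : ℝ) : ℝ := (4 * R₀ + 2 * Real.sqrt n + 2) * (4 * R₀ + 1)

/-- the data of an abstract pair count -/
structure NjP (π τ ζ γ κ : Type) where
  /-- joint mass -/
  j : π → τ → ℝ
  /-- end label -/
  z : π → ζ
  /-- parent label -/
  par : π → γ
  /-- grid label -/
  g : π → κ
  /-- good incidences -/
  Gd : τ → π → Prop
  /-- near pairs -/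
  Near : π → π → Prop

variable {π τ ζ γ κ : Type} [Fintype π] [Fintype τ]

/-- `P(T, parent = c)` -/
noncomputable def NjP.W (D : NjP π τ ζ γ κ) (T : τ) (c : γ) : ℝ := ∑ x with D.par x = c, D.j x T

/-- the hypotheses of the pair count -/
structure NjP.Ok (D : NjP π τ ζ γ κ) (m₁ κc N M₁ M₂ : ℝ) : Prop where
  j0 : ∀ x T, 0 ≤ D.j x T
  j1 : ∑ x, ∑ T, D.j x T ≤ 1
  zp : ∀ x x', D.z x = D.z x' → D.par x = D.par x'
  zg : ∀ x x', D.z x = D.z x' → D.g x = D.g x'
  zG : ∀ T x x', D.z x = D.z x' → D.Gd T x → D.Gd T x'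
  zN : ∀ x x' y', D.z x' = D.z y' → D.Near x x' → D.Near x y'
  m0 : 0 ≤ m₁
  k0 : 0 ≤ κc
  N0 : 0 ≤ N
  M10 : 0 ≤ M₁
  M20 : 0 ≤ M₂
  /-- conditional mass of a good end label -/
  H1 : ∀ T x, D.Gd T x → ∑ x' with D.z x' = D.z x, D.j x' T ≤ m₁ * D.W T (D.par x)
  /-- grid labels met by one tube in one parent -/
  H2 : ∀ T c, (((Finset.univ.filter fun x => D.Gd T x ∧ D.par x = c).image D.g).card : ℝ) ≤ N
  /-- good end labels near a point -/
  H3 : ∀ x, (((Finset.univ.filter fun x' => (∃ T, D.Gd T x') ∧ D.Near x x').image D.z).card : ℝ) ≤ M₁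
  /-- good end labels in a grid cell -/
  H4 : ∀ x, (((Finset.univ.filter fun x' => (∃ T, D.Gd T x') ∧ D.g x' = D.g x).image D.z).card : ℝ) ≤ M₂
  /-- two far good incidences confine the tube to a set of small conditional probability -/
  H5 : ∀ x x', ¬ D.Near x x' → ∑ T with D.Gd T x ∧ D.Gd T x', D.j x T ≤ κc * ∑ T, D.j x T

/-- the pair sum restricted by a relation `Rl` -/
noncomputable def NjP.S (D : NjP π τ ζ γ κ) (Rl : π → π → Prop) : ℝ :=
  ∑ T, ∑ x, ∑ x', if D.Gd T x ∧ D.Gd T x' ∧ D.par x' = D.par x ∧ D.g x' = D.g x ∧ Rl x x' then D.j x T * D.j x' T / D.W T (D.par x) else 0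

/-- the good mass -/
noncomputable def NjP.p (D : NjP π τ ζ γ κ) : ℝ := ∑ x, ∑ T with D.Gd T x, D.j x T

end Claimed.Agent.R257.TR
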