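import Claimed.Agent.R257.TR.Model

/-!
# R257 / TR / NJ / Dy : dyadic levels, floors and cell labels      (architect + prover helper28)

PAPER-FREE.  `scR L u` = dyadic level of a REAL exponent (`sc L s = scR L s` by `rfl`);   nested cells, points of one cell are close, points of non-neighbouring cells are far, finite sets of neighbouring labels and of sub-labels.
-/

set_option autoImplicit false

namespace Claimed.Agent.R257.TR

open Claimed.Agent.R255 Claimed.Agent.R257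
open scoped BigOperators InnerProductSpace
open Classical

variable {n : ℕ}

/-- labels of space-time cells -/
abbrev Lb (n : ℕ) : Type := (Fin n → ℤ) × ℤ

/-- dyadic level of a real exponent -/
noncomputable def scR (L u : ℝ) : ℕ := ⌊u * Real.logb 2 L⌋₊

theorem tr_nj_sc_eq (L : ℝ) (s : ℚ) : sc L s = scR L (s : ℝ) := rfl

theorem tr_nj_two_rpow {L : ℝ} (hL : 1 < L) (u : ℝ) : (2 : ℝ) ^ (u * Real.logb 2 L) = L ^ u := by
  rw [mul_comm, Real.rpow_mul (by norm_num), Real.rpow_logb (by norm_num) (by norm_num) (by linarith)]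

theorem tr_nj_scR_le {L u : ℝ} (hL : 1 < L) (hu : 0 ≤ u) : (2 : ℝ) ^ scR L u ≤ L ^ u := by
  rw [← tr_nj_two_rpow hL u, ← Real.rpow_natCast]
  apply Real.rpow_le_rpow_of_exponent_le (by norm_num)
  exact Nat.floor_le (mul_nonneg hu (Real.logb_nonneg (by norm_num) hL.le))

theorem tr_nj_scR_lt {L : ℝ} (hL : 1 < L) (u : ℝ) : L ^ u < (2 : ℝ) ^ (scR L u + 1) := by
  rw [← tr_nj_two_rpow hL u, ← Real.rpow_natCast]
  apply Real.rpow_lt_rpow_of_exponent_lt (by norm_num)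
  push_cast
  exact Nat.lt_floor_add_one _

theorem tr_nj_scR_mono {L u v : ℝ} (hL : 1 < L) (huv : u ≤ v) : scR L u ≤ scR L v :=
  Nat.floor_le_floor (mul_le_mul_of_nonneg_right huv (Real.logb_nonneg (by norm_num) hL.le))

/-- ratio of two levels -/
theorem tr_nj_scR_ratio {L u v : ℝ} (hL : 1 < L) (hv : 0 ≤ v) :
    (2 : ℝ) ^ scR L v / (2 : ℝ) ^ scR L u ≤ 2 * L ^ (v - u) := by
  have h1 := tr_nj_scR_le hL hv
  have h2 := tr_nj_scR_lt hL u
  have hLu : 0 < L ^ u := Real.rpow_pos_of_pos (by linarith) u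
  rw [div_le_iff₀ (by positivity), Real.rpow_sub (by linarith)]
  calc (2 : ℝ) ^ scR L v ≤ L ^ v := h1
    _ = L ^ v / L ^ u * L ^ u := by field_simp
    _ ≤ L ^ v / L ^ u * (2 : ℝ) ^ (scR L u + 1) :=
        mul_le_mul_of_nonneg_left h2.le (by positivity)
    _ = _ := by rw [pow_succ]; ring

/-! ### floors -/

theorem tr_nj_floor_sub (k d : ℕ) (t : ℝ) :
    (2 : ℤ) ^ d * ⌊(2 : ℝ) ^ k * t⌋ ≤ ⌊(2 : ℝ) ^ (k + d) * t⌋ ∧
      ⌊(2 : ℝ) ^ (k + d) * t⌋ < (2 : ℤ) ^ d * (⌊(2 : ℝ) ^ k * t⌋ + 1) := by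
  have e : (2 : ℝ) ^ (k + d) * t = (2 : ℝ) ^ d * ((2 : ℝ) ^ k * t) := by rw [pow_add]; ring
  have hd : (0 : ℝ) < (2 : ℝ) ^ d := by positivity
  constructor
  · rw [Int.le_floor, e]
    push_cast
    exact mul_le_mul_of_nonneg_left (Int.floor_le _) hd.le
  · rw [Int.floor_lt, e]
    push_cast
    exact mul_lt_mul_of_pos_left (Int.lt_floor_add_one _) hd

theorem tr_nj_floor_nest (k d : ℕ) (t t' : ℝ) (h : ⌊(2 : ℝ) ^ (k + d) * t⌋ = ⌊(2 : ℝ) ^ (k + d) * t'⌋) :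
    ⌊(2 : ℝ) ^ k * t⌋ = ⌊(2 : ℝ) ^ k * t'⌋ := by
  obtain ⟨h1, h2⟩ := tr_nj_floor_sub k d t
  obtain ⟨h3, h4⟩ := tr_nj_floor_sub k d t'
  rw [h] at h1 h2
  have hd : (0 : ℤ) < (2 : ℤ) ^ d := by positivity
  have a1 : ⌊(2 : ℝ) ^ k * t⌋ < ⌊(2 : ℝ) ^ k * t'⌋ + 1 := lt_of_mul_lt_mul_left (h1.trans_lt h4) hd.le
  have a2 : ⌊(2 : ℝ) ^ k * t'⌋ < ⌊(2 : ℝ) ^ k * t⌋ + 1 := lt_of_mul_lt_mul_left (h3.trans_lt h2) hd.le
  omega

theorem tr_nj_floor_close (k : ℕ) (t t' : ℝ) (h : ⌊(2 : ℝ) ^ k * t⌋ = ⌊(2 : ℝ) ^ k * t'⌋) :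
    |t - t'| ≤ 1 / (2 : ℝ) ^ k := by
  have h1 := Int.abs_sub_lt_one_of_floor_eq_floor h
  have hk : (0 : ℝ) < (2 : ℝ) ^ k := by positivity
  rw [← mul_sub, abs_mul, abs_of_pos hk] at h1
  rw [le_div_iff₀ hk]
  linarith

theorem tr_nj_floor_far (k : ℕ) (t t' : ℝ) (h : ¬ |⌊(2 : ℝ) ^ k * t⌋ - ⌊(2 : ℝ) ^ k * t'⌋| ≤ 1) :
    1 / (2 : ℝ) ^ k < |t - t'| := by
  have hk : (0 : ℝ) < (2 : ℝ) ^ k := by positivity
  rw [div_lt_iff₀ hk]
  have e : |t - t'| * (2 : ℝ) ^ k = |(2 : ℝ) ^ k * t - (2 : ℝ) ^ k * t'| := by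
    rw [← mul_sub, abs_mul, abs_of_pos hk, mul_comm]
  rw [e]
  set u := (2 : ℝ) ^ k * t
  set u' := (2 : ℝ) ^ k * t'
  rw [not_le] at h
  have h2 : (2 : ℤ) ≤ |⌊u⌋ - ⌊u'⌋| := by omega
  rcases le_abs.1 h2 with h3 | h3
  · have h4 : ((⌊u'⌋ + 2 : ℤ) : ℝ) ≤ (⌊u⌋ : ℝ) := by exact_mod_cast (by omega : ⌊u'⌋ + 2 ≤ ⌊u⌋)
    push_cast at h4
    have h5 := Int.floor_le u
    have h6 := Int.lt_floor_add_one u'
    exact lt_of_lt_of_le (by linarith) (le_abs_self _)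
  · have h4 : ((⌊u⌋ + 2 : ℤ) : ℝ) ≤ (⌊u'⌋ : ℝ) := by exact_mod_cast (by omega : ⌊u⌋ + 2 ≤ ⌊u'⌋)
    push_cast at h4
    have h5 := Int.floor_le u'
    have h6 := Int.lt_floor_add_one u
    exact lt_of_lt_of_le (by linarith) (neg_le_abs _)

/-! ### cells -/

theorem tr_nj_cell_nest {k k' : ℕ} (hk : k ≤ k') (p p' : ST n) (h : cellL k' p = cellL k' p') :
    cellL k p = cellL k p' := by
  obtain ⟨d, rfl⟩ := Nat.exists_eq_add_of_le hk
  unfold cellL at h ⊢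
  rw [Prod.mk.injEq] at h ⊢
  refine ⟨funext fun i => tr_nj_floor_nest k d _ _ (congrFun h.1 i), tr_nj_floor_nest k d _ _ h.2⟩

theorem tr_nj_cell_close (k : ℕ) (p p' : ST n) (h : cellL k p = cellL k p') :
    ‖p.1 - p'.1‖ ≤ Real.sqrt n / (2 : ℝ) ^ k ∧ |p.2 - p'.2| ≤ 1 / (2 : ℝ) ^ k := by
  unfold cellL at h
  rw [Prod.mk.injEq] at h
  refine ⟨?_, tr_nj_floor_close k _ _ h.2⟩
  have hk : (0 : ℝ) < (2 : ℝ) ^ k := by positivity
  rw [EuclideanSpace.norm_eq]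
  have h1 : ∑ i, ‖(p.1 - p'.1) i‖ ^ 2 ≤ (n : ℝ) * (1 / (2 : ℝ) ^ k) ^ 2 := by
    calc ∑ i, ‖(p.1 - p'.1) i‖ ^ 2 ≤ ∑ _i : Fin n, (1 / (2 : ℝ) ^ k) ^ 2 := by
          refine Finset.sum_le_sum fun i _ => ?_
          apply pow_le_pow_left₀ (norm_nonneg _)
          rw [Real.norm_eq_abs]
          exact tr_nj_floor_close k _ _ (congrFun h.1 i)
      _ = _ := by simp
  calc Real.sqrt (∑ i, ‖(p.1 - p'.1) i‖ ^ 2) ≤ Real.sqrt ((n : ℝ) * (1 / (2 : ℝ) ^ k) ^ 2) :=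
        Real.sqrt_le_sqrt h1
    _ = _ := by
        rw [Real.sqrt_mul (Nat.cast_nonneg n), Real.sqrt_sq (by positivity)]
        ring

/-- neighbouring labels -/
def NjNear (y y' : Lb n) : Prop := (∀ i, |y.1 i - y'.1 i| ≤ 1) ∧ |y.2 - y'.2| ≤ 1

theorem tr_nj_cell_far (k : ℕ) (p p' : ST n) (h : ¬ NjNear (cellL k p) (cellL k p')) :
    1 / (2 : ℝ) ^ k < ‖p.1 - p'.1‖ ∨ 1 / (2 : ℝ) ^ k < |p.2 - p'.2| := by
  unfold NjNear at h
  rw [not_and_or] at h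
  rcases h with h | h
  · left
    push Not at h
    obtain ⟨i, hi⟩ := h
    have h1 := tr_nj_floor_far k (p.1 i) (p'.1 i) (not_le.2 hi)
    refine h1.trans_le ?_
    have := PiLp.norm_apply_le (p.1 - p'.1) i
    rwa [Real.norm_eq_abs] at this
  · right
    exact tr_nj_floor_far k _ _ h

/-- the finite set of the neighbours of a label -/
noncomputable def njNb (y : Lb n) : Finset (Lb n) :=
  (Fintype.piFinset fun i => Finset.Icc (y.1 i - 1) (y.1 i + 1)) ×ˢ Finset.Icc (y.2 - 1) (y.2 + 1)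

theorem tr_nj_nb_card (y : Lb n) : (njNb y).card = 3 ^ (n + 1) := by
  unfold njNb
  rw [Finset.card_product, Fintype.card_piFinset]
  simp only [Int.card_Icc]
  have : ∀ z : ℤ, (z + 1 + 1 - (z - 1)).toNat = 3 := fun z => by
    have : z + 1 + 1 - (z - 1) = 3 := by ring
    rw [this]; rfl
  simp only [this, Finset.prod_const, Finset.card_univ, Fintype.card_fin]
  rw [pow_succ]

theorem tr_nj_nb_mem (y y' : Lb n) (h : NjNear y y') : y' ∈ njNb y := by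
  unfold njNb
  rw [Finset.mem_product, Fintype.mem_piFinset]
  refine ⟨fun i => ?_, ?_⟩
  · have := abs_le.1 (h.1 i)
    rw [Finset.mem_Icc]
    constructor <;> linarith [this.1, this.2]
  · have := abs_le.1 h.2
    rw [Finset.mem_Icc]
    constructor <;> linarith [this.1, this.2]

/-- the finite set of the labels of the sub-cells, `d` levels down -/
noncomputable def njSub (d : ℕ) (γ : Lb n) : Finset (Lb n) :=
  (Fintype.piFinset fun i => Finset.Ico ((2 : ℤ) ^ d * γ.1 i) ((2 : ℤ) ^ d * (γ.1 i + 1))) ×ˢ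
    Finset.Ico ((2 : ℤ) ^ d * γ.2) ((2 : ℤ) ^ d * (γ.2 + 1))

theorem tr_nj_sub_card (d : ℕ) (γ : Lb n) : (njSub d γ).card = (2 ^ d) ^ (n + 1) := by
  unfold njSub
  rw [Finset.card_product, Fintype.card_piFinset]
  simp only [Int.card_Ico]
  have : ∀ z : ℤ, ((2 : ℤ) ^ d * (z + 1) - (2 : ℤ) ^ d * z).toNat = 2 ^ d := fun z => by
    have : (2 : ℤ) ^ d * (z + 1) - (2 : ℤ) ^ d * z = ((2 ^ d : ℕ) : ℤ) := by push_cast; ring
    rw [this, Int.toNat_natCast]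
  simp only [this, Finset.prod_const, Finset.card_univ, Fintype.card_fin]
  rw [pow_succ]

theorem tr_nj_sub_mem (k d : ℕ) (p : ST n) : cellL (k + d) p ∈ njSub d (cellL k p) := by
  unfold njSub cellL
  rw [Finset.mem_product, Fintype.mem_piFinset]
  refine ⟨fun i => ?_, ?_⟩
  · rw [Finset.mem_Ico]
    exact tr_nj_floor_sub k d _
  · rw [Finset.mem_Ico]
    exact tr_nj_floor_sub k d _

end Claimed.Agent.R257.TR
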