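import Claimed.Agent.R257.TR.NJ.Dy

/-!
# R257 / TR / NJ / Vis : a thin tube visits few grid cells; two far points fix the direction      (architect + prover helper28)

PAPER-FREE (report 832 N2).
* `tr_nj_visit`: the points of one parent cell (level `k₀`) within `w` of the central line of a tube lie in `≤ (2R₀+4)^n 2^d` cells of level `k₀ + d`, if `2^{k₀+d} w ≤ 1`;
* `tr_nj_cap`: `‖Δu - 2Δt ξ‖ ≤ w'`, `‖(Δu,Δt)‖ > δ₁ ≥ 2w'`, `‖ξ‖ ≤ R₀'` ⟹ `‖ξ - Δu/(2Δt)‖ ≤ 2R₀' w'/δ₁`.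
-/

set_option autoImplicit false

namespace Claimed.Agent.R257.TR

open Claimed.Agent.R255 Claimed.Agent.R257
open scoped BigOperators InnerProductSpace
open Classical

variable {n : ℕ}

theorem tr_nj_toNat_le (z : ℤ) (r : ℝ) (hr : 0 ≤ r) (h : (z : ℝ) ≤ r) : ((z.toNat : ℕ) : ℝ) ≤ r := by
  rcases le_total 0 z with hz | hz
  · have : ((z.toNat : ℕ) : ℝ) = (z : ℝ) := by
      have := Int.toNat_of_nonneg hz
      exact_mod_cast this
    rw [this]; exact h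
  · rw [Int.toNat_of_nonpos hz]; simpa using hr

theorem tr_nj_card_Icc_floor (c ρ : ℝ) (hρ : 0 ≤ ρ) :
    ((Finset.Icc ⌊c - ρ⌋ ⌊c + ρ⌋).card : ℝ) ≤ 2 * ρ + 2 := by
  rw [Int.card_Icc]
  apply tr_nj_toNat_le _ _ (by linarith)
  push_cast
  have h1 := Int.floor_le (c + ρ)
  have h2 := Int.lt_floor_add_one (c - ρ)
  linarith

/-- **a thin tube visits few grid cells of a parent** -/
theorem tr_nj_visit (k₀ d : ℕ) (ic fr : E n) (w R₀ : ℝ) (hfr : ‖fr‖ ≤ R₀)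
    (hw : (2 : ℝ) ^ (k₀ + d) * w ≤ 1) (c₀ : Lb n) :
    ∃ W : Finset (Lb n), (W.card : ℝ) ≤ (2 * R₀ + 4) ^ n * (2 : ℝ) ^ d ∧
      ∀ p : ST n, cellL k₀ p = c₀ → ‖p.1 - ic - (2 * p.2) • fr‖ ≤ w → cellL (k₀ + d) p ∈ W := by
  have hR₀ : 0 ≤ R₀ := (norm_nonneg _).trans hfr
  set a : ℝ := (2 : ℝ) ^ (k₀ + d) with ha
  have ha0 : 0 < a := by positivity
  set ρ : ℝ := R₀ + 1 with hρ
  have hρ0 : 0 ≤ ρ := by positivity
  set cen : Fin n → ℤ → ℝ := fun i j => a * ic i + 2 * fr i * j + fr i with hcen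
  set W : Finset (Lb n) := (Finset.Ico ((2 : ℤ) ^ d * c₀.2) ((2 : ℤ) ^ d * (c₀.2 + 1))).biUnion
    (fun j => (Fintype.piFinset fun i => Finset.Icc ⌊cen i j - ρ⌋ ⌊cen i j + ρ⌋) ×ˢ {j}) with hW
  refine ⟨W, ?_, ?_⟩
  · have h1 : (W.card : ℝ) ≤ ∑ j ∈ Finset.Ico ((2 : ℤ) ^ d * c₀.2) ((2 : ℤ) ^ d * (c₀.2 + 1)),
        ((((Fintype.piFinset fun i => Finset.Icc ⌊cen i j - ρ⌋ ⌊cen i j + ρ⌋) ×ˢ
          ({j} : Finset ℤ)).card : ℕ) : ℝ) := by
      exact_mod_cast Finset.card_biUnion_le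
    have h2 : ∀ j : ℤ, ((((Fintype.piFinset fun i => Finset.Icc ⌊cen i j - ρ⌋ ⌊cen i j + ρ⌋) ×ˢ
          ({j} : Finset ℤ)).card : ℕ) : ℝ) ≤ (2 * R₀ + 4) ^ n := by
      intro j
      rw [Finset.card_product, Fintype.card_piFinset, Finset.card_singleton, mul_one]
      push_cast
      calc ∏ i : Fin n, ((Finset.Icc ⌊cen i j - ρ⌋ ⌊cen i j + ρ⌋).card : ℝ)
          ≤ ∏ _i : Fin n, (2 * R₀ + 4) := by
            refine Finset.prod_le_prod (fun i _ => Nat.cast_nonneg _) fun i _ => ?_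
            refine (tr_nj_card_Icc_floor _ ρ hρ0).trans (le_of_eq ?_)
            rw [hρ]; ring
        _ = _ := by simp
    have h3 : ((Finset.Ico ((2 : ℤ) ^ d * c₀.2) ((2 : ℤ) ^ d * (c₀.2 + 1))).card : ℝ) = (2 : ℝ) ^ d := by
      rw [Int.card_Ico]
      have : (2 : ℤ) ^ d * (c₀.2 + 1) - (2 : ℤ) ^ d * c₀.2 = ((2 ^ d : ℕ) : ℤ) := by push_cast; ring
      rw [this, Int.toNat_natCast]
      push_cast; rfl
    calc (W.card : ℝ) ≤ _ := h1
      _ ≤ ∑ _j ∈ Finset.Ico ((2 : ℤ) ^ d * c₀.2) ((2 : ℤ) ^ d * (c₀.2 + 1)), (2 * R₀ + 4) ^ n :=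
          Finset.sum_le_sum fun j _ => h2 j
      _ = _ := by rw [Finset.sum_const, nsmul_eq_mul, h3, mul_comm]
  · intro p hp hinc
    rw [hW, Finset.mem_biUnion]
    refine ⟨⌊a * p.2⌋, ?_, ?_⟩
    · rw [Finset.mem_Ico, ← hp]
      exact tr_nj_floor_sub k₀ d p.2
    · rw [Finset.mem_product, Fintype.mem_piFinset]
      refine ⟨fun i => ?_, by simp [cellL, ha]⟩
      have hco : |p.1 i - ic i - 2 * p.2 * fr i| ≤ w := by
        have := PiLp.norm_apply_le (p.1 - ic - (2 * p.2) • fr) i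
        rw [Real.norm_eq_abs] at this
        exact this.trans hinc
      have hfi : |fr i| ≤ R₀ := by
        have := PiLp.norm_apply_le fr i
        rw [Real.norm_eq_abs] at this
        exact this.trans hfr
      have hfl1 := Int.floor_le (a * p.2)
      have hfl2 := Int.lt_floor_add_one (a * p.2)
      have hdiff : |2 * (a * p.2 - (⌊a * p.2⌋ : ℝ)) - 1| ≤ 1 := by
        rw [abs_le]; constructor <;> linarith
      have hkey : |a * p.1 i - cen i ⌊a * p.2⌋| ≤ ρ := by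
        have e : a * p.1 i - cen i ⌊a * p.2⌋ =
            a * (p.1 i - ic i - 2 * p.2 * fr i) + fr i * (2 * (a * p.2 - (⌊a * p.2⌋ : ℝ)) - 1) := by
          simp only [hcen]; ring
        rw [e]
        refine (abs_add_le _ _).trans ?_
        rw [abs_mul, abs_mul, abs_of_pos ha0]
        have h1 : a * |p.1 i - ic i - 2 * p.2 * fr i| ≤ 1 :=
          (mul_le_mul_of_nonneg_left hco ha0.le).trans hw
        have h2 : |fr i| * |2 * (a * p.2 - (⌊a * p.2⌋ : ℝ)) - 1| ≤ R₀ * 1 :=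
          mul_le_mul hfi hdiff (abs_nonneg _) hR₀
        rw [hρ]; linarith
      rw [abs_le] at hkey
      rw [Finset.mem_Icc]
      constructor
      · apply Int.floor_le_floor
        show cen i ⌊a * p.2⌋ - ρ ≤ (2 : ℝ) ^ (k₀ + d) * p.1 i
        rw [← ha]; linarith [hkey.1]
      · apply Int.floor_le_floor
        show (2 : ℝ) ^ (k₀ + d) * p.1 i ≤ cen i ⌊a * p.2⌋ + ρ
        rw [← ha]; linarith [hkey.2]

/-- **two far points fix the direction** -/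
theorem tr_nj_cap (R₀' w' δ₁ Δt : ℝ) (Δu fr : E n) (hR : 1 ≤ R₀') (hfr : ‖fr‖ ≤ R₀') (hδ : 0 < δ₁)
    (hw : w' ≤ δ₁ / 2) (hinc : ‖Δu - (2 * Δt) • fr‖ ≤ w') (hfar : δ₁ < ‖Δu‖ ∨ δ₁ < |Δt|) :
    ‖fr - (2 * Δt)⁻¹ • Δu‖ ≤ 2 * R₀' * w' / δ₁ := by
  have hw0 : 0 ≤ w' := (norm_nonneg _).trans hinc
  have hΔt : δ₁ / (4 * R₀') ≤ |Δt| := by
    rw [div_le_iff₀ (by positivity)]
    rcases hfar with h | h
    · have h1 : ‖Δu‖ ≤ w' + 2 * |Δt| * R₀' := by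
        calc ‖Δu‖ = ‖(Δu - (2 * Δt) • fr) + (2 * Δt) • fr‖ := by rw [sub_add_cancel]
          _ ≤ ‖Δu - (2 * Δt) • fr‖ + ‖(2 * Δt) • fr‖ := norm_add_le _ _
          _ ≤ w' + 2 * |Δt| * R₀' := by
            rw [norm_smul, Real.norm_eq_abs, abs_mul, abs_of_pos (by norm_num : (0 : ℝ) < 2)]
            exact add_le_add hinc (mul_le_mul_of_nonneg_left hfr (by positivity))
      nlinarith
    · nlinarith [abs_nonneg Δt]
  have hΔt0 : 0 < |Δt| := lt_of_lt_of_le (by positivity) hΔt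
  have hne : (2 * Δt) ≠ 0 := by
    intro h0
    have : Δt = 0 := by linarith
    rw [this, abs_zero] at hΔt0
    exact lt_irrefl _ hΔt0
  have e : fr - (2 * Δt)⁻¹ • Δu = -((2 * Δt)⁻¹ • (Δu - (2 * Δt) • fr)) := by
    rw [smul_sub, smul_smul, inv_mul_cancel₀ hne, one_smul]
    abel
  rw [e, norm_neg, norm_smul, norm_inv, Real.norm_eq_abs, abs_mul,
    abs_of_pos (by norm_num : (0 : ℝ) < 2)]
  calc (2 * |Δt|)⁻¹ * ‖Δu - (2 * Δt) • fr‖ ≤ (2 * |Δt|)⁻¹ * w' :=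
        mul_le_mul_of_nonneg_left hinc (by positivity)
    _ ≤ (2 * (δ₁ / (4 * R₀')))⁻¹ * w' := by
        apply mul_le_mul_of_nonneg_right _ hw0
        apply inv_anti₀ (by positivity)
        linarith
    _ = _ := by field_simp; ring

end Claimed.Agent.R257.TR
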