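import Claimed.Agent.R257.TR.NJ.Defs
import Claimed.Agent.R257.TR.NJ.Vis

/-!
# R257 / TR / NJ / Geo : dyadic cells, tubes, far pairs      (architect helper53)      PAPER-FREE elementary geometry (REUSABLE by FACTS+GEO)
Leaves L-TR-NJ-G1 (`tr_nj_sc_*`, `tr_nj_nest`), G2 (`tr_nj_sub_count`, `tr_nj_adj_count`), G3 (`tr_nj_tube_count`), G4 (`tr_nj_far`), G5 (`tr_nj_ball`).   Prove IN PLACE, helper lemmas above your theorem.
-/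

set_option autoImplicit false

namespace Claimed.Agent.R257.TR

open Claimed.Agent.R255 Claimed.Agent.R257
open scoped BigOperators InnerProductSpace
open Classical

variable {n : ℕ}

/-- L-TR-NJ-G1 (~60 l.): `L^r = 2^{r log₂ L}` (`Real.rpow_logb`, `Real.rpow_mul`), `Nat.floor_le`, `Nat.lt_floor_add_one`, `Real.rpow_natCast` -/
theorem tr_nj_sc_le {L : ℝ} (hL : 1 < L) {r : ℚ} (hr : 0 ≤ r) : (2 : ℝ) ^ (sc L r) ≤ L ^ (r : ℝ) ∧ L ^ (r : ℝ) < (2 : ℝ) ^ (sc L r + 1) := by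
  exact ⟨tr_nj_scR_le hL (by exact_mod_cast hr), tr_nj_scR_lt hL _⟩

/-- L-TR-NJ-G1 (~20 l.) -/
theorem tr_nj_sc_mono {L : ℝ} (hL : 1 ≤ L) {r r' : ℚ} (h : r ≤ r') : sc L r ≤ sc L r' := by
  exact Nat.floor_le_floor (mul_le_mul_of_nonneg_right (by exact_mod_cast h)
    (Real.logb_nonneg (by norm_num) hL))

/-- L-TR-NJ-G1 (~40 l.) -/
theorem tr_nj_sc_diff {L : ℝ} (hL : 1 < L) {r r' : ℚ} (h0 : 0 ≤ r) (h : r ≤ r') : (2 : ℝ) ^ (sc L r' - sc L r) ≤ 2 * L ^ ((r' : ℝ) - r) := by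
  have hk : sc L r ≤ sc L r' := tr_nj_sc_mono hL.le h
  rw [pow_sub₀ _ (by norm_num) hk, ← div_eq_mul_inv]
  exact tr_nj_scR_ratio hL (by exact_mod_cast h0.trans h)

/-- L-TR-NJ-G1 (~60 l.).  nested grids: `⌊2^k t⌋ = ⌊⌊2^{k'} t⌋ / 2^{k'-k}⌋` (`Int.floor_div_natCast`/`Int.floor_intCast_div…`, or directly from the characterisation `Int.floor_eq_iff`) -/
theorem tr_nj_nest {k k' : ℕ} (h : k ≤ k') {z z' : ST n} (hz : cellL k' z = cellL k' z') : cellL k z = cellL k z' := by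
  exact tr_nj_cell_nest h z z' hz

/-- L-TR-NJ-G2 (~150 l.).  a cell of level `k` contains `(2^{k'-k})^{n+1}` cells of level `k'`: every coordinate label lies in `Finset.Ico (2^{k'-k} c_i) (2^{k'-k} (c_i + 1))`; injection into `Fintype.piFinset … ×ˢ …`. -/
theorem tr_nj_sub_count {ι : Type} (F : Finset ι) (p : ι → ST n) {k k' : ℕ} (h : k ≤ k') (c : (Fin n → ℤ) × ℤ) (hF : ∀ x ∈ F, cellL k (p x) = c) :
    ((F.image fun x => cellL k' (p x)).card : ℝ) ≤ ((2 : ℝ) ^ (k' - k)) ^ (n + 1) := by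
  have hsub : (F.image fun x => cellL k' (p x)) ⊆ njSub (k' - k) c := by
    intro y hy
    obtain ⟨x, hx, rfl⟩ := Finset.mem_image.1 hy
    have := tr_nj_sub_mem k (k' - k) (p x)
    rwa [Nat.add_sub_cancel' h, hF x hx] at this
  have := Finset.card_le_card hsub
  rw [tr_nj_sub_card] at this
  exact_mod_cast this

/-- L-TR-NJ-G2 (~80 l.) -/
theorem tr_nj_adj_count {ι : Type} (F : Finset ι) (lab : ι → (Fin n → ℤ) × ℤ) (μ : (Fin n → ℤ) × ℤ) (hF : ∀ x ∈ F, CAdj μ (lab x)) :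
    ((F.image lab).card : ℝ) ≤ 3 ^ (n + 1) := by
  have hsub : F.image lab ⊆ njNb μ := by
    intro y hy
    obtain ⟨x, hx, rfl⟩ := Finset.mem_image.1 hy
    exact tr_nj_nb_mem μ (lab x) (hF x hx)
  have := Finset.card_le_card hsub
  rw [tr_nj_nb_card] at this
  exact_mod_cast this

/-- L-TR-NJ-G3 (~250 l.).  **Cells met by a thin tube.**   Time labels: `2^{kg-k}` values (as in `tr_nj_sub_count`).   For a fixed time label `τ₀`: `2^{kg} x_i = 2^{kg} y_i + 2 (2^{kg} t) ξ_i + 2^{kg} e_i`, `2^{kg} t ∈ [τ₀, τ₀+1)`, `|ξ_i| ≤ R₀`, `|2^{kg} e_i| ≤ 1`: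
an interval of length `≤ 2R₀ + 2`, hence at most `2R₀ + 4` values of the floor. -/
theorem tr_nj_tube_count {ι : Type} (F : Finset ι) (p : ι → ST n) {k kg : ℕ} (h : k ≤ kg) (c : (Fin n → ℤ) × ℤ) (hF : ∀ x ∈ F, cellL k (p x) = c)
    (y ξ : E n) {R₀ δ : ℝ} (hξ : ‖ξ‖ ≤ R₀) (hδ : δ ≤ ((2 : ℝ) ^ kg)⁻¹) (hinc : ∀ x ∈ F, ‖(p x).1 - y - (2 * (p x).2) • ξ‖ ≤ δ) :
    ((F.image fun x => cellL kg (p x)).card : ℝ) ≤ (2 : ℝ) ^ (kg - k) * (2 * R₀ + 4) ^ n := by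
  obtain ⟨d, rfl⟩ := Nat.exists_eq_add_of_le h
  have hw : (2 : ℝ) ^ (k + d) * δ ≤ 1 := by
    have hpos : (0 : ℝ) < (2 : ℝ) ^ (k + d) := by positivity
    calc (2 : ℝ) ^ (k + d) * δ ≤ (2 : ℝ) ^ (k + d) * ((2 : ℝ) ^ (k + d))⁻¹ :=
          mul_le_mul_of_nonneg_left hδ hpos.le
      _ = 1 := mul_inv_cancel₀ hpos.ne'
  obtain ⟨W, hW, hmem⟩ := tr_nj_visit k d y ξ δ R₀ hξ hw c
  have hsub : (F.image fun x => cellL (k + d) (p x)) ⊆ W := by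
    intro z hz
    obtain ⟨x, hx, rfl⟩ := Finset.mem_image.1 hz
    exact hmem (p x) (hF x hx) (hinc x hx)
  have h1 : ((F.image fun x => cellL (k + d) (p x)).card : ℝ) ≤ (W.card : ℝ) := by
    exact_mod_cast Finset.card_le_card hsub
  rw [Nat.add_sub_cancel_left, mul_comm]
  exact h1.trans hW

/-- L-TR-NJ-G4 (~300 l.).  **Two far points fix the frequency.**   `Δ = a - a'`, `D = x - x'`, `w = 2^{-k'}`, `W = 2^{-k''}`.   Same `k'`-cells: `|D.2 - Δ.2| ≤ 2w`, `‖D.1 - Δ.1‖ ≤ 2√n w`.   `cellL k'' a = cellL k'' x` (`tr_nj_nest`), so some coordinate label of `a, a'` differs by `≥ 2`,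
that coordinate of `Δ` is `> W` in absolute value.   `‖Δ.1 - (2Δ.2) • ξ‖ ≤ 2δ`.   Time coordinate: `|Δ.2| > W`.   Space coordinate: `W < ‖Δ.1‖ ≤ 2R₀|Δ.2| + W/2`.   In both cases `(4R₀+1)|Δ.2| ≥ W`; by `h2`: `|D.2| ≥ |Δ.2| - 2w ≥ W/(2(4R₀+1)) > 0`.
`‖(2D.2) • ξ - D.1‖ ≤ 4R₀ w + 2δ + 2√n w`; divide by `2|D.2|`. -/
theorem tr_nj_far {R₀ δ : ℝ} (hR : 0 ≤ R₀) (hδ : 0 ≤ δ) {k' k'' : ℕ} (hk : k'' ≤ k') (h1 : 4 * δ ≤ ((2 : ℝ) ^ k'')⁻¹)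
    (h2 : 4 * (4 * R₀ + 1) * ((2 : ℝ) ^ k')⁻¹ ≤ ((2 : ℝ) ^ k'')⁻¹) {x x' a a' : ST n} (hxa : cellL k' a = cellL k' x) (hxa' : cellL k' a' = cellL k' x')
    (hfar : ¬ CAdj (cellL k'' x) (cellL k'' x')) {y ξ : E n} (hξ : ‖ξ‖ ≤ R₀) (ha : ‖a.1 - y - (2 * a.2) • ξ‖ ≤ δ) (ha' : ‖a'.1 - y - (2 * a'.2) • ξ‖ ≤ δ) :
    ‖ξ - (2 * (x.2 - x'.2))⁻¹ • (x.1 - x'.1)‖ ≤ njC5 n R₀ * (δ + ((2 : ℝ) ^ k')⁻¹) * (2 : ℝ) ^ k'' := by
  set w : ℝ := ((2 : ℝ) ^ k')⁻¹ with hw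
  set W : ℝ := ((2 : ℝ) ^ k'')⁻¹ with hW
  have hw0 : 0 < w := by positivity
  have hW0 : 0 < W := by positivity
  have hwe : 1 / (2 : ℝ) ^ k' = w := by rw [hw, one_div]
  have hWe : 1 / (2 : ℝ) ^ k'' = W := by rw [hW, one_div]
  -- closeness
  obtain ⟨c1, c2⟩ := tr_nj_cell_close k' a x hxa
  obtain ⟨c3, c4⟩ := tr_nj_cell_close k' a' x' hxa'
  rw [hwe] at c2 c4
  have c1' : ‖a.1 - x.1‖ ≤ Real.sqrt n * w := by rw [hw, ← div_eq_mul_inv]; exact c1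
  have c3' : ‖a'.1 - x'.1‖ ≤ Real.sqrt n * w := by rw [hw, ← div_eq_mul_inv]; exact c3
  -- farness of the incident points
  have hfar' : ¬ NjNear (cellL k'' a) (cellL k'' a') := by
    rw [tr_nj_cell_nest hk a x hxa, tr_nj_cell_nest hk a' x' hxa']
    exact hfar
  have hf := tr_nj_cell_far k'' a a' hfar'
  rw [hWe] at hf
  -- incidence of the difference
  have hinc : ‖(a.1 - a'.1) - (2 * (a.2 - a'.2)) • ξ‖ ≤ 2 * δ := by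
    have e : (a.1 - a'.1) - (2 * (a.2 - a'.2)) • ξ =
        (a.1 - y - (2 * a.2) • ξ) - (a'.1 - y - (2 * a'.2) • ξ) := by
      rw [mul_sub, sub_smul]; abel
    rw [e]
    exact (norm_sub_le _ _).trans (by linarith)
  have hΔ : W ≤ (4 * R₀ + 1) * |a.2 - a'.2| := by
    rcases hf with h | h
    · have h3 : ‖a.1 - a'.1‖ ≤ 2 * δ + 2 * |a.2 - a'.2| * R₀ := by
        calc ‖a.1 - a'.1‖ = ‖((a.1 - a'.1) - (2 * (a.2 - a'.2)) • ξ) + (2 * (a.2 - a'.2)) • ξ‖ := by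
              rw [sub_add_cancel]
          _ ≤ ‖(a.1 - a'.1) - (2 * (a.2 - a'.2)) • ξ‖ + ‖(2 * (a.2 - a'.2)) • ξ‖ := norm_add_le _ _
          _ ≤ 2 * δ + 2 * |a.2 - a'.2| * R₀ := by
            rw [norm_smul, Real.norm_eq_abs, abs_mul, abs_of_pos (by norm_num : (0 : ℝ) < 2)]
            exact add_le_add hinc (mul_le_mul_of_nonneg_left hξ (by positivity))
      nlinarith [abs_nonneg (a.2 - a'.2)]
    · nlinarith [abs_nonneg (a.2 - a'.2)]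
  have hC : 0 < 4 * R₀ + 1 := by positivity
  -- the time difference of the reference points
  have hD2 : |a.2 - a'.2| ≤ |x.2 - x'.2| + 2 * w := by
    have e : a.2 - a'.2 = (x.2 - x'.2) + ((a.2 - x.2) - (a'.2 - x'.2)) := by ring
    rw [e]
    refine (abs_add_le _ _).trans ?_
    have := abs_sub (a.2 - x.2) (a'.2 - x'.2)
    linarith
  have hD : W ≤ 2 * (4 * R₀ + 1) * |x.2 - x'.2| := by
    have h3 : W ≤ (4 * R₀ + 1) * (|x.2 - x'.2| + 2 * w) :=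
      hΔ.trans (mul_le_mul_of_nonneg_left hD2 hC.le)
    nlinarith
  have hD0 : 0 < |x.2 - x'.2| := by
    by_contra hcon
    have : |x.2 - x'.2| = 0 := le_antisymm (not_lt.1 hcon) (abs_nonneg _)
    rw [this, mul_zero] at hD
    linarith
  have hne : (2 * (x.2 - x'.2)) ≠ 0 := by
    intro h0
    have : x.2 - x'.2 = 0 := by linarith
    rw [this, abs_zero] at hD0
    exact lt_irrefl _ hD0
  -- incidence of the reference difference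
  have hinc2 : ‖(x.1 - x'.1) - (2 * (x.2 - x'.2)) • ξ‖ ≤ 2 * δ + 2 * Real.sqrt n * w + 4 * R₀ * w := by
    have e : (x.1 - x'.1) - (2 * (x.2 - x'.2)) • ξ =
        ((a.1 - a'.1) - (2 * (a.2 - a'.2)) • ξ) - (a.1 - x.1) + (a'.1 - x'.1)
          + (2 * ((a.2 - x.2) - (a'.2 - x'.2))) • ξ := by
      have e2 : (2 * (a.2 - a'.2)) = 2 * (x.2 - x'.2) + 2 * ((a.2 - x.2) - (a'.2 - x'.2)) := by ring
      rw [e2, add_smul]
      abel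
    rw [e]
    have t1 : ‖(2 * ((a.2 - x.2) - (a'.2 - x'.2))) • ξ‖ ≤ 4 * R₀ * w := by
      rw [norm_smul, Real.norm_eq_abs, abs_mul, abs_of_pos (by norm_num : (0 : ℝ) < 2)]
      have := abs_sub (a.2 - x.2) (a'.2 - x'.2)
      have h5 : |(a.2 - x.2) - (a'.2 - x'.2)| ≤ 2 * w := by linarith
      calc 2 * |(a.2 - x.2) - (a'.2 - x'.2)| * ‖ξ‖ ≤ 2 * (2 * w) * R₀ :=
            mul_le_mul (by linarith) hξ (norm_nonneg _) (by positivity)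
        _ = _ := by ring
    calc _ ≤ ‖((a.1 - a'.1) - (2 * (a.2 - a'.2)) • ξ) - (a.1 - x.1) + (a'.1 - x'.1)‖
            + ‖(2 * ((a.2 - x.2) - (a'.2 - x'.2))) • ξ‖ := norm_add_le _ _
      _ ≤ (‖((a.1 - a'.1) - (2 * (a.2 - a'.2)) • ξ) - (a.1 - x.1)‖ + ‖a'.1 - x'.1‖)
            + ‖(2 * ((a.2 - x.2) - (a'.2 - x'.2))) • ξ‖ := by gcongr; exact norm_add_le _ _
      _ ≤ ((‖(a.1 - a'.1) - (2 * (a.2 - a'.2)) • ξ‖ + ‖a.1 - x.1‖) + ‖a'.1 - x'.1‖)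
            + ‖(2 * ((a.2 - x.2) - (a'.2 - x'.2))) • ξ‖ := by gcongr; exact norm_sub_le _ _
      _ ≤ _ := by linarith
  have e : ξ - (2 * (x.2 - x'.2))⁻¹ • (x.1 - x'.1) =
      -((2 * (x.2 - x'.2))⁻¹ • ((x.1 - x'.1) - (2 * (x.2 - x'.2)) • ξ)) := by
    rw [smul_sub (2 * (x.2 - x'.2))⁻¹ (x.1 - x'.1) ((2 * (x.2 - x'.2)) • ξ), smul_smul,
      inv_mul_cancel₀ hne, one_smul]
    abel
  rw [e, norm_neg, norm_smul, norm_inv, Real.norm_eq_abs, abs_mul,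
    abs_of_pos (by norm_num : (0 : ℝ) < 2)]
  have hsn : 0 ≤ Real.sqrt n := Real.sqrt_nonneg _
  have hinv : (2 * |x.2 - x'.2|)⁻¹ ≤ (4 * R₀ + 1) * (2 : ℝ) ^ k'' := by
    have h2k : (0 : ℝ) < (2 : ℝ) ^ k'' := by positivity
    rw [inv_le_iff_one_le_mul₀ (by positivity)]
    have : 1 ≤ (2 * (4 * R₀ + 1) * |x.2 - x'.2|) * (2 : ℝ) ^ k'' := by
      calc (1 : ℝ) = W * (2 : ℝ) ^ k'' := by rw [hW, inv_mul_cancel₀ h2k.ne']
        _ ≤ _ := mul_le_mul_of_nonneg_right hD h2k.le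
    calc (1 : ℝ) ≤ _ := this
      _ = _ := by ring
  calc (2 * |x.2 - x'.2|)⁻¹ * ‖(x.1 - x'.1) - (2 * (x.2 - x'.2)) • ξ‖
      ≤ ((4 * R₀ + 1) * (2 : ℝ) ^ k'') * (2 * δ + 2 * Real.sqrt n * w + 4 * R₀ * w) :=
        mul_le_mul hinv hinc2 (norm_nonneg _) (by positivity)
    _ ≤ ((4 * R₀ + 1) * (2 : ℝ) ^ k'') * ((4 * R₀ + 2 * Real.sqrt n + 2) * (δ + w)) := by
        apply mul_le_mul_of_nonneg_left _ (by positivity)
        nlinarith [mul_nonneg hR hδ, mul_nonneg hsn hδ, hw0.le]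
    _ = _ := by unfold njC5; ring

/-- L-TR-NJ-G5 (~100 l.).  **A ball of frequencies lies in a codimension-two strip** (`n ≥ 2`): `a = EuclideanSpace.single ⟨0,_⟩ 1`, `b = EuclideanSpace.single ⟨1,_⟩ 1`, `α₀ = ⟪a, ξs⟫`, `β₀ = ⟪b, ξs⟫`, `|⟪a, ξ - ξs⟫| ≤ ‖ξ - ξs‖`; `Finset.sum_le_sum_of_subset_of_nonneg`; `hM.strip`. -/
theorem tr_nj_ball (hn : 2 ≤ n) (M : TModel n) {R₀ c₁ Cτ : ℝ} (hM : M.Ok R₀ c₁ Cτ) (x : M.π) (ξs : E n) {ρ α : ℝ} (hα0 : 0 ≤ α) (hα : α ≤ 1 / 8) (hρ : ρ ≤ M.L ^ (-α)) :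
    ∑ T with ‖M.fr 0 T - ξs‖ ≤ ρ, M.κ 0 x T ≤ M.L ^ (-c₁ * α + M.ε) := by
  set a : E n := EuclideanSpace.single (⟨0, by omega⟩ : Fin n) (1 : ℝ) with ha
  set b : E n := EuclideanSpace.single (⟨1, by omega⟩ : Fin n) (1 : ℝ) with hb
  have hna : ‖a‖ = 1 := by rw [ha]; simp
  have hnb : ‖b‖ = 1 := by rw [hb]; simp
  have hab : ⟪a, b⟫_ℝ = 0 := by
    rw [ha, hb, EuclideanSpace.inner_single_left]
    simp
  have hs := hM.strip 0 x a b ⟪a, ξs⟫_ℝ ⟪b, ξs⟫_ℝ α hna hnb hab hα0 hα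
  refine le_trans (Finset.sum_le_sum_of_subset_of_nonneg ?_ fun T _ _ => M.κ_nonneg 0 x T) hs
  intro T hT
  rw [Finset.mem_filter] at hT ⊢
  refine ⟨Finset.mem_univ _, ?_, ?_⟩
  · rw [← inner_sub_right]
    calc |⟪a, M.fr 0 T - ξs⟫_ℝ| ≤ ‖a‖ * ‖M.fr 0 T - ξs‖ := abs_real_inner_le_norm _ _
      _ ≤ M.L ^ (-α) := by rw [hna, one_mul]; exact hT.2.trans hρ
  · rw [← inner_sub_right]
    calc |⟪b, M.fr 0 T - ξs⟫_ℝ| ≤ ‖b‖ * ‖M.fr 0 T - ξs‖ := abs_real_inner_le_norm _ _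
      _ ≤ M.L ^ (-α) := by rw [hnb, one_mul]; exact hT.2.trans hρ

end Claimed.Agent.R257.TR
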