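import Claimed.Agent.R257.TR.NJ.Defs

/-!
# R257 / TR / NJ / Marg : marginals of the sampling law of a model; the event `UNJ` in terms of masses      (architect helper53)
Leaves L-TR-NJ-M1 (`tr_nj_ms`, `tr_nj_pr_x`, `tr_nj_pr_xT`: REUSABLE by FACTS and BT), M2 (`tr_nj_ms_*`), M3 (`tr_nj_succ`, `tr_nj_trans`).   Prove IN PLACE, helper lemmas above your theorem.
-/

set_option autoImplicit false

namespace Claimed.Agent.R257.TR

open Claimed.Agent.R255 Claimed.Agent.R257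
open scoped BigOperators
open Classical

variable {n : ℕ}

/-- L-TR-NJ-M1 (~40 l.).  the mass of a joint label: `jo A ω' = jo A ω ↔ ∀ a ∈ A, ob a ω' = ob a ω` (`funext`) -/
theorem tr_nj_ms {Nm Ex : Type} (S : ISys Nm Ex) (A : Finset Nm) (ω : S.Ω) : S.ms A ω = S.P.pr (fun ω' => ∀ a ∈ A, S.ob a ω' = S.ob a ω) := by
  unfold ISys.ms FLaw.fib
  congr 1
  funext ω'
  exact propext (tr_jo_eq_iff S A ω' ω)

/-- a product of one-variable factors summed over all tuples -/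
theorem tr_nj_m1_prod (M : TModel n) (f : Fin (n + 1) × Bool → M.τ → ℝ) :
    ∑ Tv : Fin (n + 1) × Bool → M.τ, ∏ q, f q (Tv q) = ∏ q, ∑ T, f q T := by
  have h2 := Finset.prod_univ_sum (fun _ : Fin (n + 1) × Bool => (Finset.univ : Finset M.τ)) f
  rw [Fintype.piFinset_univ] at h2
  exact h2.symm

/-- L-TR-NJ-M1 (~80 l.).  marginal of the point: sum out all tubes (`Fintype.sum_prod_type`, `Finset.prod_univ_sum`, `κ_sum`; as in the proof of `TModel.law.sum_one`) -/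
theorem tr_nj_pr_x (M : TModel n) (E : M.π → Prop) : M.law.pr (fun ω => E ω.1) = M.pm E := by
  unfold FLaw.pr TModel.pm
  rw [Fintype.sum_prod_type]
  have h : ∀ x : M.π, ∑ Tv : Fin (n + 1) × Bool → M.τ, (if E x then M.law.p (x, Tv) else 0)
      = if E x then (Fintype.card M.π : ℝ)⁻¹ else 0 := by
    intro x
    by_cases hE : E x
    · simp only [hE, if_true]
      show ∑ Tv : Fin (n + 1) × Bool → M.τ, (Fintype.card M.π : ℝ)⁻¹ * ∏ q : Fin (n + 1) × Bool, M.κ q.1 x (Tv q) = _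
      rw [← Finset.mul_sum, tr_nj_m1_prod M (fun q T => M.κ q.1 x T)]
      simp [M.κ_sum]
    · simp [hE]
  simp only [h]
  rw [← Finset.sum_filter, Finset.sum_const, nsmul_eq_mul, mul_comm]

/-- L-TR-NJ-M1 (~150 l.).  marginal of the point and ONE tube `q`: sum out the other tubes (split the product at `q`: `Fintype.prod_eq_mul_prod_compl`/`Finset.mul_prod_erase`; reindex `(Fin (n+1) × Bool → τ) ≃ τ × ({q' // q' ≠ q} → τ)`: `Equiv.funSplitAt`/`Equiv.piSplitAt`) -/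
theorem tr_nj_pr_xT (M : TModel n) (q : Fin (n + 1) × Bool) (E : M.π → M.τ → Prop) :
    M.law.pr (fun ω => E ω.1 (ω.2 q)) = ∑ x, ∑ T with E x T, (Fintype.card M.π : ℝ)⁻¹ * M.κ q.1 x T := by
  unfold FLaw.pr
  rw [Fintype.sum_prod_type]
  refine Finset.sum_congr rfl fun x _ => ?_
  set f : Fin (n + 1) × Bool → M.τ → ℝ :=
    fun q' T => if q' = q then (if E x T then M.κ q.1 x T else 0) else M.κ q'.1 x T with hf
  have h1 : ∀ Tv : Fin (n + 1) × Bool → M.τ, (if E x (Tv q) then M.law.p (x, Tv) else 0)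
      = (Fintype.card M.π : ℝ)⁻¹ * ∏ q', f q' (Tv q') := by
    intro Tv
    by_cases hE : E x (Tv q)
    · rw [if_pos hE]
      show (Fintype.card M.π : ℝ)⁻¹ * ∏ q' : Fin (n + 1) × Bool, M.κ q'.1 x (Tv q') = _
      congr 1
      refine Finset.prod_congr rfl fun q' _ => ?_
      simp only [hf]
      by_cases hq : q' = q
      · subst hq
        simp [hE]
      · simp [hq]
    · rw [if_neg hE]
      have : ∏ q', f q' (Tv q') = 0 := by
        refine Finset.prod_eq_zero (Finset.mem_univ q) ?_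
        simp [hf, hE]
      rw [this, mul_zero]
  simp only [h1]
  rw [← Finset.mul_sum, tr_nj_m1_prod M f]
  have h2 : ∀ q', ∑ T, f q' T = if q' = q then (∑ T, if E x T then M.κ q.1 x T else 0) else 1 := by
    intro q'
    simp only [hf]
    by_cases hq : q' = q
    · simp [hq]
    · simp [hq, M.κ_sum]
  simp only [h2]
  rw [Finset.prod_ite_eq' Finset.univ q, if_pos (Finset.mem_univ q), Finset.sum_filter, Finset.mul_sum]
  refine Finset.sum_congr rfl fun T _ => ?_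
  split_ifs <;> simp

/-- L-TR-NJ-M2 (~30 l.) -/
theorem tr_nj_ms_X1 (M : TModel n) (s : ℚ) (ω : M.Om) : M.sys.ms {TNm.X s} ω = M.pm (fun x' => M.cl s x' = M.cl s ω.1) := by
  refine (tr_nj_ms M.sys _ ω).trans ?_
  rw [← tr_nj_pr_x]
  show M.law.pr _ = M.law.pr _
  congr 1
  funext ω'
  apply propext
  constructor
  · intro h
    exact h _ (Finset.mem_singleton_self _)
  · intro h a ha
    rw [Finset.mem_singleton] at ha
    subst ha
    exact h

/-- L-TR-NJ-M2 (~40 l.): `tr_nj_ms`, `Finset.mem_union`, `Finset.mem_singleton`, `M.sys.ob (TNm.X r) ω = M.cl r ω.1` (`rfl`), `tr_nj_pr_x` -/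
theorem tr_nj_ms_X2 (M : TModel n) (r s : ℚ) (ω : M.Om) :
    M.sys.ms ({TNm.X r} ∪ {TNm.X s}) ω = M.pm (fun x' => M.cl r x' = M.cl r ω.1 ∧ M.cl s x' = M.cl s ω.1) := by
  refine (tr_nj_ms M.sys _ ω).trans ?_
  rw [← tr_nj_pr_x]
  show M.law.pr _ = M.law.pr _
  congr 1
  funext ω'
  apply propext
  constructor
  · intro h
    exact ⟨h _ (Finset.mem_union_left _ (Finset.mem_singleton_self _)),
      h _ (Finset.mem_union_right _ (Finset.mem_singleton_self _))⟩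
  · rintro ⟨h1, h2⟩ a ha
    rcases Finset.mem_union.1 ha with ha | ha <;> rw [Finset.mem_singleton] at ha <;> subst ha
    · exact h1
    · exact h2

/-- the joint mass as a marginal of the point and the tube `T_0` -/
theorem tr_nj_m2_jm (M : TModel n) (T₀ : M.τ) (E : M.π → Prop) :
    M.law.pr (fun ω' => E ω'.1 ∧ ω'.2 (0, false) = T₀) = M.jm T₀ E := by
  rw [tr_nj_pr_xT M (0, false) (fun x' T => E x' ∧ T = T₀)]
  unfold TModel.jm TModel.j0
  rw [Finset.sum_filter]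
  refine Finset.sum_congr rfl fun x _ => ?_
  rw [Finset.sum_filter]
  by_cases hE : E x
  · simp [hE]
  · simp [hE]

/-- L-TR-NJ-M2 (~50 l.): `tr_nj_pr_xT` with `q = (0, false)`, `E x' T = (cl s x' = cl s ω.1 ∧ T = ω.2 (0,false))` -/
theorem tr_nj_ms_XT (M : TModel n) (s : ℚ) (ω : M.Om) :
    M.sys.ms ({TNm.X s} ∪ {TNm.T 0 false}) ω = M.jm (ω.2 (0, false)) (fun x' => M.cl s x' = M.cl s ω.1) := by
  refine (tr_nj_ms M.sys _ ω).trans ?_
  rw [← tr_nj_m2_jm]
  show M.law.pr _ = M.law.pr _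
  congr 1
  funext ω'
  apply propext
  constructor
  · intro h
    exact ⟨h _ (Finset.mem_union_left _ (Finset.mem_singleton_self _)),
      h _ (Finset.mem_union_right _ (Finset.mem_singleton_self _))⟩
  · rintro ⟨h1, h2⟩ a ha
    rcases Finset.mem_union.1 ha with ha | ha <;> rw [Finset.mem_singleton] at ha <;> subst ha
    · exact h1
    · exact h2

/-- L-TR-NJ-M2 (~50 l.) -/
theorem tr_nj_ms_XXT (M : TModel n) (r s : ℚ) (ω : M.Om) :
    M.sys.ms ({TNm.X r} ∪ ({TNm.X s} ∪ {TNm.T 0 false})) ω = M.jm (ω.2 (0, false)) (fun x' => M.cl r x' = M.cl r ω.1 ∧ M.cl s x' = M.cl s ω.1) := by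
  refine (tr_nj_ms M.sys _ ω).trans ?_
  rw [← tr_nj_m2_jm]
  show M.law.pr _ = M.law.pr _
  congr 1
  funext ω'
  apply propext
  constructor
  · intro h
    exact ⟨⟨h _ (Finset.mem_union_left _ (Finset.mem_singleton_self _)),
      h _ (Finset.mem_union_right _ (Finset.mem_union_left _ (Finset.mem_singleton_self _)))⟩,
      h _ (Finset.mem_union_right _ (Finset.mem_union_right _ (Finset.mem_singleton_self _)))⟩
  · rintro ⟨⟨h1, h2⟩, h3⟩ a ha
    rcases Finset.mem_union.1 ha with ha | ha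
    · rw [Finset.mem_singleton] at ha
      subst ha
      exact h1
    · rcases Finset.mem_union.1 ha with ha | ha <;> rw [Finset.mem_singleton] at ha <;> subst ha
      · exact h2
      · exact h3

theorem tr_nj_m3_lo {L u v a : ℝ} (hL : 1 < L) (hu : 0 < u) (hv : 0 < v)
    (h : - Real.logb L u - - Real.logb L v < a) : L ^ (-a) * v < u := by
  have hL0 : 0 < L := by linarith
  have hp : 0 < L ^ (-a) := Real.rpow_pos_of_pos hL0 _
  rw [← Real.logb_lt_logb_iff hL (mul_pos hp hv) hu, Real.logb_mul hp.ne' hv.ne', Real.logb_rpow hL0 hL.ne']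
  linarith

theorem tr_nj_m3_hi {L u v a : ℝ} (hL : 1 < L) (hu : 0 < u) (hv : 0 < v)
    (h : a < - Real.logb L u - - Real.logb L v) : u < L ^ (-a) * v := by
  have hL0 : 0 < L := by linarith
  have hp : 0 < L ^ (-a) := Real.rpow_pos_of_pos hL0 _
  rw [← Real.logb_lt_logb_iff hL hu (mul_pos hp hv), Real.logb_mul hp.ne' hv.ne', Real.logb_rpow hL0 hL.ne']
  linarith

theorem tr_nj_m3_cI (M : TModel n) (ω : M.Om) (A B : Finset (TNm n)) :
    cI (M.sys.vec ω) A B = - Real.logb M.L (M.sys.ms (A ∪ B) ω) - - Real.logb M.L (M.sys.ms B ω) := rfl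

theorem tr_nj_m3_ms_pos (M : TModel n) (ω : M.Om) (hω : 0 < M.law.p ω) (A : Finset (TNm n)) : 0 < M.sys.ms A ω :=
  tr_info_fib_pos M.law _ ω hω

/-- L-TR-NJ-M3 (~200 l.).  `cI (vec ω) A B = I0 (A ∪ B) ω - I0 B ω = - logb L (ms (A ∪ B) ω / ms B ω)`; all masses are positive (`tr_info_fib_pos`, `hω`); for `L > 1`: `cI < a ↔ L^{-a} ms B < ms (A ∪ B)` (`Real.logb_lt_iff_lt_rpow`, `Real.lt_logb_iff_rpow_lt`, `Real.logb_div`).
`pos`: `law.p ω` is a product containing the factor `κ 0 ω.1 (ω.2 (0,false))`. -/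
theorem tr_nj_succ (M : TModel n) (hL : 1 < M.L) (η : ℝ) (s b : ℚ) (ω : M.Om) (hω : 0 < M.law.p ω) (h : M.sys.vec ω ∈ UNJ η s b) :
    NjS M η s b ω.1 (ω.2 (0, false)) := by
  obtain ⟨h1, h2, h3⟩ := h
  rw [tr_nj_m3_cI] at h1 h2 h3
  have h1' := abs_lt.1 h1
  have p1 := tr_nj_m3_ms_pos M ω hω ({TNm.X (s + b)} ∪ {TNm.X s})
  have p2 := tr_nj_m3_ms_pos M ω hω {TNm.X s}
  have p3 := tr_nj_m3_ms_pos M ω hω ({TNm.X (s + b / 2)} ∪ {TNm.X s})
  have p4 := tr_nj_m3_ms_pos M ω hω ({TNm.X (s + b)} ∪ ({TNm.X s} ∪ {TNm.T 0 false}))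
  have p5 := tr_nj_m3_ms_pos M ω hω ({TNm.X s} ∪ {TNm.T 0 false})
  refine ⟨?_, ?_, ?_, ?_, ?_⟩
  · have hp : 0 < (Fintype.card M.π : ℝ)⁻¹ * ∏ q : Fin (n + 1) × Bool, M.κ q.1 ω.1 (ω.2 q) := hω
    rcases (M.κ_nonneg 0 ω.1 (ω.2 (0, false))).lt_or_eq with h | h
    · exact h
    · exfalso
      have : ∏ q : Fin (n + 1) × Bool, M.κ q.1 ω.1 (ω.2 q) = 0 :=
        Finset.prod_eq_zero (Finset.mem_univ ((0 : Fin (n + 1)), false)) h.symm
      rw [this, mul_zero] at hp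
      exact lt_irrefl 0 hp
  · rw [← tr_nj_ms_X1, ← tr_nj_ms_X2]
    exact tr_nj_m3_lo hL p1 p2 (by linarith [h1'.2])
  · rw [← tr_nj_ms_X1, ← tr_nj_ms_X2]
    exact tr_nj_m3_hi hL p1 p2 (by linarith [h1'.1])
  · rw [← tr_nj_ms_X1, ← tr_nj_ms_X2]
    exact tr_nj_m3_hi hL p3 p2 h2
  · rw [← tr_nj_ms_XT, ← tr_nj_ms_XXT]
    exact tr_nj_m3_hi hL p4 p5 h3

/-- L-TR-NJ-M3 (~60 l.): `tr_info_pr_congr`, `tr_nj_succ`, `tr_nj_pr_xT` -/
theorem tr_nj_trans (M : TModel n) (hL : 1 < M.L) (η : ℝ) (s b : ℚ) :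
    M.law.pr (fun ω => M.sys.vec ω ∈ UNJ η s b) ≤ ∑ x, ∑ T with NjS M η s b x T, M.j0 x T := by
  refine (tr_info_pr_congr M.law _ (fun ω => NjS M η s b ω.1 (ω.2 (0, false)))
    fun ω hω h => tr_nj_succ M hL η s b ω hω h).trans (le_of_eq ?_)
  exact tr_nj_pr_xT M (0, false) (fun x T => NjS M η s b x T)

end Claimed.Agent.R257.TR
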