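import Claimed.Agent.R257.TR.NJ.Pairs
import Claimed.Agent.R257.TR.NJ.Marg
import Claimed.Agent.R257.TR.NJ.Geo

/-!
# R257 / TR / NJ / Inst : the pair count in a model      (architect helper53)
Leaves L-TR-NJ-I0 (`tr_nj_cl_nest`, `tr_nj_R0`, `tr_nj_big_*`), I1 (`tr_nj_H1`), I2 (`tr_nj_H2`), I3 (`tr_nj_mid_count`), I4 (`tr_nj_H3`, `tr_nj_H4`), I5 (`tr_nj_H5`), I6 (`tr_nj_ok`, `tr_nj_one`).   Prove IN PLACE; cite sorried lemmas as they are.
-/

set_option autoImplicit false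

namespace Claimed.Agent.R257.TR

open Claimed.Agent.R255 Claimed.Agent.R257
open scoped BigOperators InnerProductSpace
open Classical

variable {n : ℕ}

/-- the pair count of a model -/
noncomputable def njD (M : TModel n) (η : ℝ) (s b e : ℚ) : NjP M.π M.τ ((Fin n → ℤ) × ℤ) ((Fin n → ℤ) × ℤ) ((Fin n → ℤ) × ℤ) where
  j := M.j0
  z := M.cl (s + b)
  par := M.cl s
  g := M.cl (njg s b e)
  Gd := NjGd M η s b
  Near x x' := CAdj (M.cl (s + b / 2) x) (M.cl (s + b / 2) x')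

/-- largeness of the scale, smallness of the error exponent (relative to the block length) -/
structure NjBig (R₀ : ℝ) (M : TModel n) (b : ℚ) : Prop where
  eps : M.ε ≤ (b : ℝ) / 12
  big : 8 * njC5 n R₀ + 8 ≤ M.L ^ ((b : ℝ) / 12)

/-- L-TR-NJ-I0 (~20 l.): `tr_nj_nest`, `tr_nj_sc_mono` -/
theorem tr_nj_cl_nest (M : TModel n) (hL : 1 ≤ M.L) {r r' : ℚ} (h : r ≤ r') {x x' : M.π} (hx : M.cl r' x = M.cl r' x') : M.cl r x = M.cl r x' := by
  exact tr_nj_nest (tr_nj_sc_mono hL h) hx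

/-- L-TR-NJ-I0 (~30 l.): `τ` is nonempty because `∑ T, κ 0 x T = 1` -/
theorem tr_nj_R0 (M : TModel n) {R₀ c₁ Cτ : ℝ} (hM : M.Ok R₀ c₁ Cτ) : 0 ≤ R₀ := by
  obtain ⟨x⟩ := M.neπ
  have hne : Nonempty M.τ := by
    by_contra hcon
    rw [not_nonempty_iff] at hcon
    have := M.κ_sum 0 x
    simp at this
  obtain ⟨T⟩ := hne
  exact (norm_nonneg _).trans (hM.fr_bd 0 T)

/-- `L^{-r} ≤ 2^{-sc L r}` -/
theorem tr_nj_inv_ge {L : ℝ} (hL : 1 < L) {r : ℚ} (hr : 0 ≤ r) : L ^ (-(r : ℝ)) ≤ ((2 : ℝ) ^ (sc L r))⁻¹ := by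
  rw [Real.rpow_neg (by linarith)]
  exact inv_anti₀ (by positivity) (tr_nj_sc_le hL hr).1

/-- `2^{-sc L r} ≤ 2 L^{-r}` -/
theorem tr_nj_inv_le {L : ℝ} (hL : 1 < L) {r : ℚ} (hr : 0 ≤ r) : ((2 : ℝ) ^ (sc L r))⁻¹ ≤ 2 * L ^ (-(r : ℝ)) := by
  have hL0 : 0 < L := by linarith
  have hp : 0 < L ^ (r : ℝ) := Real.rpow_pos_of_pos hL0 _
  rw [Real.rpow_neg hL0.le, ← div_eq_mul_inv, le_div_iff₀ hp, inv_mul_le_iff₀ (by positivity)]
  have := (tr_nj_sc_le hL hr).2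
  rw [pow_succ] at this
  linarith

/-- L-TR-NJ-I0 (~60 l.).  `2^{kg} ≤ L^{sg}`, `sg + ε ≤ 1` (`sg ≤ s + b/2 ≤ 1 - b/2`) -/
theorem tr_nj_big_g (M : TModel n) (hL : 1 < M.L) {R₀ : ℝ} {s b e : ℚ} (hb : EBlk s b) (he : 0 < e) (he' : e < 1 / 2) (hB : NjBig R₀ M b) :
    M.L ^ (-1 + M.ε) ≤ ((2 : ℝ) ^ (sc M.L (njg s b e)))⁻¹ := by
  have hL0 : 0 < M.L := by linarith
  obtain ⟨hs, hb0, hsb, _⟩ := hb
  have hsR : (0 : ℝ) ≤ (s : ℝ) := by exact_mod_cast hs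
  have hbR : (0 : ℝ) < (b : ℝ) := by exact_mod_cast hb0
  have hsbR : (s : ℝ) + b ≤ 1 := by exact_mod_cast hsb
  have heR : (0 : ℝ) < (e : ℝ) := by exact_mod_cast he
  have heR' : (e : ℝ) < 1 / 2 := by
    have : ((e : ℚ) : ℝ) < ((1 / 2 : ℚ) : ℝ) := by exact_mod_cast he'
    push_cast at this
    linarith
  have hg : ((njg s b e : ℚ) : ℝ) = (s : ℝ) + b / 2 - e * b := by unfold njg; push_cast; ring
  have hg0 : 0 ≤ njg s b e := by
    have : (0 : ℝ) ≤ ((njg s b e : ℚ) : ℝ) := by rw [hg]; nlinarith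
    exact_mod_cast this
  refine le_trans ?_ (tr_nj_inv_ge hL hg0)
  apply Real.rpow_le_rpow_of_exponent_le hL.le
  rw [hg]
  have := hB.eps
  nlinarith

/-- L-TR-NJ-I0 (~150 l.).  the three numerical hypotheses of the far pairs.   `δ = L^{-1+ε}`, `(2^{k'})⁻¹ < 2 L^{-(s+b)}`, `L^{-(s+b/2)} ≤ (2^{k''})⁻¹`, `2^{k''} ≤ L^{s+b/2}` (`tr_nj_sc_le`), `s + b ≤ 1`, `ε ≤ b/12`:
(1) `4 ≤ L^{b/12} ≤ L^{1-ε-s-b/2}`;  (2) `8(4R₀+1) ≤ 8 njC5 ≤ L^{b/12} ≤ L^{b/2}` (`njC5 ≥ 2(4R₀+1)`);  (3) `(δ + (2^{k'})⁻¹) 2^{k''} ≤ 3 L^{-b/2+ε}`, `3 njC5 ≤ L^{b/12} ≤ L^{b/6-ε}`. -/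
theorem tr_nj_big_far (M : TModel n) (hL : 1 < M.L) {R₀ : ℝ} (hR : 0 ≤ R₀) {s b : ℚ} (hb : EBlk s b) (hB : NjBig R₀ M b) :
    4 * M.L ^ (-1 + M.ε) ≤ ((2 : ℝ) ^ (sc M.L (s + b / 2)))⁻¹ ∧
    4 * (4 * R₀ + 1) * ((2 : ℝ) ^ (sc M.L (s + b)))⁻¹ ≤ ((2 : ℝ) ^ (sc M.L (s + b / 2)))⁻¹ ∧
    njC5 n R₀ * (M.L ^ (-1 + M.ε) + ((2 : ℝ) ^ (sc M.L (s + b)))⁻¹) * (2 : ℝ) ^ (sc M.L (s + b / 2)) ≤ M.L ^ (-((b : ℝ) / 3)) := by
  have hL0 : 0 < M.L := by linarith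
  obtain ⟨hs, hb0, hsb, _⟩ := hb
  have hsR : (0 : ℝ) ≤ (s : ℝ) := by exact_mod_cast hs
  have hbR : (0 : ℝ) < (b : ℝ) := by exact_mod_cast hb0
  have hsbR : (s : ℝ) + b ≤ 1 := by exact_mod_cast hsb
  have hmid0 : 0 ≤ s + b / 2 := by positivity
  have hend0 : 0 ≤ s + b := by positivity
  have hmidR : ((s + b / 2 : ℚ) : ℝ) = (s : ℝ) + b / 2 := by push_cast; ring
  have hendR : ((s + b : ℚ) : ℝ) = (s : ℝ) + b := by push_cast; ring
  have hε := hB.eps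
  have hbig := hB.big
  set X : ℝ := M.L ^ ((b : ℝ) / 12) with hX
  have hsn : 0 ≤ Real.sqrt n := Real.sqrt_nonneg _
  have hC5 : 2 * (4 * R₀ + 1) ≤ njC5 n R₀ := by
    unfold njC5
    nlinarith [mul_nonneg hR hR, mul_nonneg hsn hR]
  have hC50 : 0 ≤ njC5 n R₀ := by nlinarith
  have g1 := tr_nj_inv_ge hL hmid0
  have g2 := tr_nj_inv_le hL hend0
  have g3 := (tr_nj_sc_le hL hmid0).1
  rw [hmidR] at g1 g3
  rw [hendR] at g2
  have hmono : ∀ u v : ℝ, u ≤ v → M.L ^ u ≤ M.L ^ v := fun u v h =>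
    Real.rpow_le_rpow_of_exponent_le hL.le h
  have hpos : ∀ u : ℝ, 0 < M.L ^ u := fun u => Real.rpow_pos_of_pos hL0 u
  refine ⟨?_, ?_, ?_⟩
  · calc 4 * M.L ^ (-1 + M.ε) ≤ X * M.L ^ (-1 + M.ε) :=
          mul_le_mul_of_nonneg_right (by linarith) (hpos _).le
      _ = M.L ^ ((b : ℝ) / 12 + (-1 + M.ε)) := by rw [hX, ← Real.rpow_add hL0]
      _ ≤ M.L ^ (-((s : ℝ) + b / 2)) := hmono _ _ (by linarith)
      _ ≤ _ := g1
  · calc 4 * (4 * R₀ + 1) * ((2 : ℝ) ^ (sc M.L (s + b)))⁻¹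
        ≤ 4 * (4 * R₀ + 1) * (2 * M.L ^ (-((s : ℝ) + b))) :=
          mul_le_mul_of_nonneg_left g2 (by positivity)
      _ = (8 * (4 * R₀ + 1)) * M.L ^ (-((s : ℝ) + b)) := by ring
      _ ≤ X * M.L ^ (-((s : ℝ) + b)) := mul_le_mul_of_nonneg_right (by linarith) (hpos _).le
      _ = M.L ^ ((b : ℝ) / 12 + -((s : ℝ) + b)) := by rw [hX, ← Real.rpow_add hL0]
      _ ≤ M.L ^ (-((s : ℝ) + b / 2)) := hmono _ _ (by linarith)
      _ ≤ _ := g1
  · have hX1 : 1 ≤ X := by linarith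
    have d1 : M.L ^ (-1 + M.ε) ≤ X * M.L ^ (-((s : ℝ) + b)) := by
      rw [hX, ← Real.rpow_add hL0]
      exact hmono _ _ (by linarith)
    have d2 : ((2 : ℝ) ^ (sc M.L (s + b)))⁻¹ ≤ 2 * X * M.L ^ (-((s : ℝ) + b)) := by
      refine g2.trans ?_
      have := hpos (-((s : ℝ) + b))
      nlinarith
    calc njC5 n R₀ * (M.L ^ (-1 + M.ε) + ((2 : ℝ) ^ (sc M.L (s + b)))⁻¹) * (2 : ℝ) ^ (sc M.L (s + b / 2))
        ≤ njC5 n R₀ * (3 * X * M.L ^ (-((s : ℝ) + b))) * M.L ^ ((s : ℝ) + b / 2) := by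
          apply mul_le_mul _ g3 (by positivity) (by have := hpos (-((s : ℝ) + b)); positivity)
          apply mul_le_mul_of_nonneg_left _ hC50
          linarith
      _ = (3 * njC5 n R₀) * (X * (M.L ^ (-((s : ℝ) + b)) * M.L ^ ((s : ℝ) + b / 2))) := by ring
      _ ≤ X * (X * (M.L ^ (-((s : ℝ) + b)) * M.L ^ ((s : ℝ) + b / 2))) := by
          apply mul_le_mul_of_nonneg_right (by linarith)
          have := hpos (-((s : ℝ) + b))
          have := hpos ((s : ℝ) + b / 2)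
          positivity
      _ = M.L ^ ((b : ℝ) / 12 + ((b : ℝ) / 12 + (-((s : ℝ) + b) + ((s : ℝ) + b / 2)))) := by
          rw [hX, ← Real.rpow_add hL0, ← Real.rpow_add hL0, ← Real.rpow_add hL0]
      _ = _ := by congr 1; ring

/-- `pm` with any decidability instance -/
theorem tr_nj_pm_eq (M : TModel n) (E : M.π → Prop) [DecidablePred E] :
    M.pm E = (Fintype.card M.π : ℝ)⁻¹ * ((Finset.univ.filter E).card : ℝ) := by
  unfold TModel.pm
  congr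

/-- `jm` with any decidability instance -/
theorem tr_nj_jm_eq (M : TModel n) (T : M.τ) (E : M.π → Prop) [DecidablePred E] :
    M.jm T E = ∑ x with E x, M.j0 x T := by
  unfold TModel.jm
  congr

/-- L-TR-NJ-I1 (~80 l.).  witness `x₀` of `NjGd`; `q_hi`; `{cl (s+b) x' = cl (s+b) x} = {cl (s+b) x' = cl (s+b) x₀ ∧ cl s x' = cl s x₀}` (`tr_nj_cl_nest`); `W T (cl s x) = jm T (cl s · = cl s x₀)`. -/
theorem tr_nj_H1 (M : TModel n) (hL : 1 ≤ M.L) (η : ℝ) {s b : ℚ} (hb : EBlk s b) (e : ℚ) (T : M.τ) (x : M.π) (h : NjGd M η s b T x) :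
    ∑ x' with M.cl (s + b) x' = M.cl (s + b) x, M.j0 x' T ≤ M.L ^ (-((b : ℝ) / 2 - η * b)) * (njD M η s b e).W T (M.cl s x) := by
  obtain ⟨x₀, hx₀, hS⟩ := h
  have hsb : s ≤ s + b := by have := hb.2.1; linarith
  have hpar : M.cl s x₀ = M.cl s x := tr_nj_cl_nest M hL hsb hx₀
  have h1 := hS.q_hi
  rw [tr_nj_jm_eq, tr_nj_jm_eq] at h1
  have e1 : (Finset.univ.filter fun x' => M.cl (s + b) x' = M.cl (s + b) x)
      = Finset.univ.filter fun x' => M.cl (s + b) x' = M.cl (s + b) x₀ ∧ M.cl s x' = M.cl s x₀ := by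
    ext x'
    simp only [Finset.mem_filter, Finset.mem_univ, true_and]
    constructor
    · intro h
      exact ⟨h.trans hx₀.symm, tr_nj_cl_nest M hL hsb (h.trans hx₀.symm)⟩
    · intro h
      exact h.1.trans hx₀
  rw [e1]
  have e2 : (njD M η s b e).W T (M.cl s x) = ∑ x' with M.cl s x' = M.cl s x₀, M.j0 x' T := by
    rw [hpar]
    unfold NjP.W
    refine Finset.sum_congr ?_ fun _ _ => rfl
    ext x'
    simp only [Finset.mem_filter, Finset.mem_univ, true_and]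
    rfl
  rw [e2]
  exact h1.le

/-- L-TR-NJ-I2 (~150 l.).  the grid labels of the good points are grid labels of their witnesses (`tr_nj_cl_nest`: same END cell ⟹ same GRID cell and same parent; `njg s b e ≤ s + b`, `s ≤ njg s b e`); the witnesses are incident to `T` (`hM.inc`, `NjS.pos`):
`tr_nj_tube_count` with `F = {x₀ : 0 < κ 0 x₀ T, cl s x₀ = c}`, `δ = L^{-1+ε}` (`tr_nj_big_g`); `tr_nj_sc_diff`: `2^{kg-k} ≤ 2 L^{(1/2-e) b}`. -/
theorem tr_nj_H2 (M : TModel n) {R₀ c₁ Cτ : ℝ} (hM : M.Ok R₀ c₁ Cτ) (η : ℝ) {s b e : ℚ} (hb : EBlk s b) (he : 0 < e) (he' : e < 1 / 2) (hB : NjBig R₀ M b) (T : M.τ) (c : (Fin n → ℤ) × ℤ) :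
    (((Finset.univ.filter fun x => NjGd M η s b T x ∧ M.cl s x = c).image (M.cl (njg s b e))).card : ℝ) ≤ 2 * M.L ^ ((1 / 2 - (e : ℝ)) * b) * (2 * R₀ + 4) ^ n := by
  have hL : 1 < M.L := by have := hM.L_ge; linarith
  obtain ⟨hs, hb0, hsb, hb8⟩ := id hb
  have hsg : s ≤ njg s b e := by unfold njg; nlinarith
  have hge : njg s b e ≤ s + b := by unfold njg; nlinarith
  set F : Finset M.π := Finset.univ.filter fun x₀ => 0 < M.κ 0 x₀ T ∧ M.cl s x₀ = c with hF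
  have hsub : ((Finset.univ.filter fun x => NjGd M η s b T x ∧ M.cl s x = c).image (M.cl (njg s b e)))
      ⊆ F.image fun x => cellL (sc M.L (njg s b e)) (M.pos x) := by
    intro y hy
    obtain ⟨x, hx, rfl⟩ := Finset.mem_image.1 hy
    rw [Finset.mem_filter] at hx
    obtain ⟨-, ⟨x₀, hx₀, hS⟩, hc⟩ := hx
    refine Finset.mem_image.2 ⟨x₀, ?_, ?_⟩
    · rw [hF, Finset.mem_filter]
      refine ⟨Finset.mem_univ _, hS.pos, ?_⟩
      rw [← hc]
      exact tr_nj_cl_nest M hL.le (by linarith) hx₀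
    · exact tr_nj_cl_nest M hL.le hge hx₀
  have h1 := tr_nj_tube_count F M.pos (tr_nj_sc_mono hL.le hsg) c (fun x hx => (Finset.mem_filter.1 hx).2.2)
    (M.ic 0 T) (M.fr 0 T) (hM.fr_bd 0 T) (tr_nj_big_g M hL hb he he' hB)
    (fun x hx => hM.inc 0 x T (Finset.mem_filter.1 hx).2.1)
  have h2 := tr_nj_sc_diff hL hs hsg
  have h3 : ((njg s b e : ℚ) : ℝ) - s = (1 / 2 - (e : ℝ)) * b := by unfold njg; push_cast; ring
  rw [h3] at h2
  have hR := tr_nj_R0 M hM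
  calc _ ≤ ((F.image fun x => cellL (sc M.L (njg s b e)) (M.pos x)).card : ℝ) := by
        exact_mod_cast Finset.card_le_card hsub
    _ ≤ _ := h1
    _ ≤ _ := mul_le_mul_of_nonneg_right h2 (by positivity)

/-- L-TR-NJ-I3 (~250 l.).  **Good END cells in one MID cell** (H (t:good-counts)).   Empty: trivial.   Otherwise all points of the MID cell `μ` have the same parent `c` (`tr_nj_cl_nest`), `pm(c) > 0`.   One witness gives `pm(mid) < L^{-(a-ηb)} pm(c)` (`m_hi`, `a = (n+1)b/2`);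
every good END label `z'` has a witness with `L^{-(a+ηb)} pm(c) < pm(z')` (`e_lo`); the END classes are disjoint subsets of the MID class: `card · L^{-(a+ηb)} pm(c) ≤ ∑_{z'} pm(z') ≤ pm(mid)` (`Finset.card_biUnion`/`sum_fiberwise`). -/
theorem tr_nj_mid_count (M : TModel n) (hL : 1 < M.L) (η : ℝ) {s b : ℚ} (hb : EBlk s b) (μ : (Fin n → ℤ) × ℤ) :
    (((Finset.univ.filter fun x' => (∃ T, NjGd M η s b T x') ∧ M.cl (s + b / 2) x' = μ).image (M.cl (s + b))).card : ℝ) ≤ M.L ^ (2 * η * b) := by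
  have hL0 : 0 < M.L := by linarith
  obtain ⟨hs, hb0, hsb, hb8⟩ := id hb
  set F : Finset M.π := Finset.univ.filter fun x' => (∃ T, NjGd M η s b T x') ∧ M.cl (s + b / 2) x' = μ with hF
  rcases F.eq_empty_or_nonempty with hE | ⟨x₁, hx₁⟩
  · rw [hE]
    simpa using (Real.rpow_pos_of_pos hL0 _).le
  have hsm : s ≤ s + b / 2 := by linarith
  have hme : s + b / 2 ≤ s + b := by linarith
  have hμ₁ : M.cl (s + b / 2) x₁ = μ := (Finset.mem_filter.1 hx₁).2.2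
  set c := M.cl s x₁ with hc
  set q := M.pm (fun x' => M.cl s x' = c) with hq
  set a : ℝ := ((n : ℝ) + 1) * b / 2 with ha
  set S : Finset M.π := Finset.univ.filter fun x' => M.cl (s + b / 2) x' = μ ∧ M.cl s x' = c with hS
  set Ni : ℝ := (Fintype.card M.π : ℝ)⁻¹ with hNi
  have hNi0 : 0 ≤ Ni := by positivity
  have key : ∀ x' ∈ F, M.L ^ (-(a + η * b)) * q
        < Ni * ((S.filter fun x'' => M.cl (s + b) x'' = M.cl (s + b) x').card : ℝ)
      ∧ Ni * (S.card : ℝ) < M.L ^ (-(a - η * b)) * q := by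
    intro x' hx'
    obtain ⟨-, ⟨T, x₀, hx₀, hN⟩, hμ'⟩ := Finset.mem_filter.1 hx'
    have hm₀ : M.cl (s + b / 2) x₀ = μ := (tr_nj_cl_nest M hL.le hme hx₀).trans hμ'
    have hc₀ : M.cl s x₀ = c := tr_nj_cl_nest M hL.le hsm (hm₀.trans hμ₁.symm)
    have h1 := hN.e_lo
    have h2 := hN.m_hi
    rw [hc₀, hx₀, tr_nj_pm_eq M (fun x'' => M.cl (s + b) x'' = M.cl (s + b) x' ∧ M.cl s x'' = c)] at h1
    rw [hc₀, hm₀, tr_nj_pm_eq M (fun x'' => M.cl (s + b / 2) x'' = μ ∧ M.cl s x'' = c)] at h2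
    refine ⟨?_, h2⟩
    have e1 : (S.filter fun x'' => M.cl (s + b) x'' = M.cl (s + b) x')
        = Finset.univ.filter fun x'' => M.cl (s + b) x'' = M.cl (s + b) x' ∧ M.cl s x'' = c := by
      ext x''
      simp only [hS, Finset.mem_filter, Finset.mem_univ, true_and]
      constructor
      · rintro ⟨⟨_, h3⟩, h4⟩
        exact ⟨h4, h3⟩
      · rintro ⟨h4, h3⟩
        exact ⟨⟨(tr_nj_cl_nest M hL.le hme h4).trans hμ', h3⟩, h4⟩
    rw [e1]
    exact h1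
  set Z := F.image (M.cl (s + b)) with hZ
  have hsum : (Z.card : ℝ) * (M.L ^ (-(a + η * b)) * q) ≤ Ni * (S.card : ℝ) := by
    have h1 : (Z.card : ℝ) * (M.L ^ (-(a + η * b)) * q)
        ≤ ∑ z' ∈ Z, Ni * ((S.filter fun x'' => M.cl (s + b) x'' = z').card : ℝ) := by
      rw [← nsmul_eq_mul]
      apply Finset.card_nsmul_le_sum
      intro z' hz'
      obtain ⟨x', hx', rfl⟩ := Finset.mem_image.1 hz'
      exact (key x' hx').1.le
    refine h1.trans ?_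
    rw [← Finset.mul_sum]
    apply mul_le_mul_of_nonneg_left _ hNi0
    have h2 : S.card = ∑ z' ∈ S.image (M.cl (s + b)), (S.filter fun x'' => M.cl (s + b) x'' = z').card :=
      Finset.card_eq_sum_card_image _ _
    rw [h2]
    push_cast
    apply Finset.sum_le_sum_of_subset_of_nonneg
    · intro z' hz'
      obtain ⟨x', hx', rfl⟩ := Finset.mem_image.1 hz'
      refine Finset.mem_image.2 ⟨x', ?_, rfl⟩
      have hμ' : M.cl (s + b / 2) x' = μ := (Finset.mem_filter.1 hx').2.2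
      exact Finset.mem_filter.2 ⟨Finset.mem_univ _, hμ', tr_nj_cl_nest M hL.le hsm (hμ'.trans hμ₁.symm)⟩
    · intros
      positivity
  have h3 := (key x₁ hx₁).2
  have h4 : (Z.card : ℝ) * (M.L ^ (-(a + η * b)) * q) < M.L ^ (-(a - η * b)) * q := hsum.trans_lt h3
  have hq0 : 0 ≤ q := by
    rw [hq]
    unfold TModel.pm
    positivity
  have hq1 : 0 < q := by
    rcases hq0.eq_or_lt with h | h
    · rw [← h] at h4
      simp at h4
    · exact h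
  have h5 : M.L ^ (-(a - η * b)) = M.L ^ (2 * η * b) * M.L ^ (-(a + η * b)) := by
    rw [← Real.rpow_add hL0]
    congr 1
    ring
  rw [h5, mul_assoc] at h4
  have hA : 0 < M.L ^ (-(a + η * b)) := Real.rpow_pos_of_pos hL0 _
  exact (lt_of_mul_lt_mul_right h4 (by positivity)).le

/-- grouping the good END labels by the MID label -/
theorem tr_nj_grp (M : TModel n) (hL : 1 < M.L) (η : ℝ) {s b : ℚ} (hb : EBlk s b) (F : Finset M.π) (hF : ∀ x' ∈ F, ∃ T, NjGd M η s b T x') :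
    ((F.image (M.cl (s + b))).card : ℝ) ≤ ((F.image (M.cl (s + b / 2))).card : ℝ) * M.L ^ (2 * η * b) := by
  have hsub : F.image (M.cl (s + b)) ⊆ (F.image (M.cl (s + b / 2))).biUnion fun μ =>
      (Finset.univ.filter fun x' => (∃ T, NjGd M η s b T x') ∧ M.cl (s + b / 2) x' = μ).image (M.cl (s + b)) := by
    intro z hz
    obtain ⟨x', hx', rfl⟩ := Finset.mem_image.1 hz
    refine Finset.mem_biUnion.2 ⟨M.cl (s + b / 2) x', Finset.mem_image_of_mem _ hx', Finset.mem_image.2 ⟨x', ?_, rfl⟩⟩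
    exact Finset.mem_filter.2 ⟨Finset.mem_univ _, hF x' hx', rfl⟩
  calc ((F.image (M.cl (s + b))).card : ℝ)
      ≤ (((F.image (M.cl (s + b / 2))).biUnion fun μ =>
        (Finset.univ.filter fun x' => (∃ T, NjGd M η s b T x') ∧ M.cl (s + b / 2) x' = μ).image (M.cl (s + b))).card : ℝ) := by
        exact_mod_cast Finset.card_le_card hsub
    _ ≤ ∑ μ ∈ F.image (M.cl (s + b / 2)),
        (((Finset.univ.filter fun x' => (∃ T, NjGd M η s b T x') ∧ M.cl (s + b / 2) x' = μ).image (M.cl (s + b))).card : ℝ) := by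
        exact_mod_cast Finset.card_biUnion_le
    _ ≤ ∑ μ ∈ F.image (M.cl (s + b / 2)), M.L ^ (2 * η * b) := Finset.sum_le_sum fun μ _ => tr_nj_mid_count M hL η hb μ
    _ = _ := by rw [Finset.sum_const, nsmul_eq_mul]

/-- L-TR-NJ-I4 (~120 l.).  group by the MID label: at most `3^{n+1}` labels (`tr_nj_adj_count`), each with `≤ L^{2ηb}` good END labels (`tr_nj_mid_count`); `Finset.card_biUnion_le`, `Finset.image_biUnion`. -/
theorem tr_nj_H3 (M : TModel n) (hL : 1 < M.L) (η : ℝ) {s b : ℚ} (hb : EBlk s b) (x : M.π) :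
    (((Finset.univ.filter fun x' => (∃ T, NjGd M η s b T x') ∧ CAdj (M.cl (s + b / 2) x) (M.cl (s + b / 2) x')).image (M.cl (s + b))).card : ℝ) ≤ 3 ^ (n + 1) * M.L ^ (2 * η * b) := by
  set F : Finset M.π := Finset.univ.filter fun x' => (∃ T, NjGd M η s b T x') ∧ CAdj (M.cl (s + b / 2) x) (M.cl (s + b / 2) x') with hF
  have h1 := tr_nj_grp M hL η hb F (fun x' hx' => (Finset.mem_filter.1 hx').2.1)
  have h2 := tr_nj_adj_count F (M.cl (s + b / 2)) (M.cl (s + b / 2) x) (fun x' hx' => (Finset.mem_filter.1 hx').2.2)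
  exact h1.trans (mul_le_mul_of_nonneg_right h2 (Real.rpow_pos_of_pos (by linarith) _).le)

/-- L-TR-NJ-I4 (~120 l.).  the same with `tr_nj_sub_count` (`k = sc L (njg s b e) ≤ k' = sc L (s + b/2)`), `tr_nj_sc_diff`: `2^{k'-k} ≤ 2 L^{e b}`. -/
theorem tr_nj_H4 (M : TModel n) (hL : 1 < M.L) (η : ℝ) {s b e : ℚ} (hb : EBlk s b) (he : 0 < e) (he' : e < 1 / 2) (x : M.π) :
    (((Finset.univ.filter fun x' => (∃ T, NjGd M η s b T x') ∧ M.cl (njg s b e) x' = M.cl (njg s b e) x).image (M.cl (s + b))).card : ℝ) ≤ (2 * M.L ^ ((e : ℝ) * b)) ^ (n + 1) * M.L ^ (2 * η * b) := by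
  obtain ⟨hs, hb0, hsb, hb8⟩ := id hb
  have hL0 : 0 < M.L := by linarith
  have hg0 : 0 ≤ njg s b e := by unfold njg; nlinarith
  have hgm : njg s b e ≤ s + b / 2 := by unfold njg; nlinarith
  set F : Finset M.π := Finset.univ.filter fun x' => (∃ T, NjGd M η s b T x') ∧ M.cl (njg s b e) x' = M.cl (njg s b e) x with hF
  have h1 := tr_nj_grp M hL η hb F (fun x' hx' => (Finset.mem_filter.1 hx').2.1)
  have h2 := tr_nj_sub_count F M.pos (tr_nj_sc_mono hL.le hgm) (M.cl (njg s b e) x) (fun x' hx' => (Finset.mem_filter.1 hx').2.2)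
  have h3 := tr_nj_sc_diff hL hg0 hgm
  have h4 : ((s + b / 2 : ℚ) : ℝ) - ((njg s b e : ℚ) : ℝ) = (e : ℝ) * b := by unfold njg; push_cast; ring
  rw [h4] at h3
  have h5 : ((F.image (M.cl (s + b / 2))).card : ℝ) ≤ (2 * M.L ^ ((e : ℝ) * b)) ^ (n + 1) :=
    h2.trans (pow_le_pow_left₀ (by positivity) h3 _)
  exact h1.trans (mul_le_mul_of_nonneg_right h5 (Real.rpow_pos_of_pos hL0 _).le)

/-- L-TR-NJ-I5 (~150 l.).  **The cap bound** (H (t:posterior-law) and below).   If `T` is good with `x` and with `x'`: witnesses `a = pos x₀`, `a' = pos x₀'` incident to `T` (`hM.inc`), `tr_nj_far` (`tr_nj_big_far`): `‖fr 0 T - ξs‖ ≤ L^{-b/3}`, `ξs = (2 (t - t'))⁻¹ • (x - x')` independent of `T`;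
`Finset.sum_le_sum_of_subset_of_nonneg`; `tr_nj_ball` with `α = b/3 ≤ 1/8`. -/
theorem tr_nj_H5 (hn : 2 ≤ n) (M : TModel n) {R₀ c₁ Cτ : ℝ} (hM : M.Ok R₀ c₁ Cτ) (η : ℝ) {s b : ℚ} (hb : EBlk s b) (hB : NjBig R₀ M b) (x x' : M.π)
    (hfar : ¬ CAdj (M.cl (s + b / 2) x) (M.cl (s + b / 2) x')) :
    ∑ T with NjGd M η s b T x ∧ NjGd M η s b T x', M.κ 0 x T ≤ M.L ^ (-c₁ * ((b : ℝ) / 3) + M.ε) := by
  have hL : 1 < M.L := by have := hM.L_ge; linarith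
  have hL0 : 0 < M.L := by linarith
  have hR := tr_nj_R0 M hM
  obtain ⟨hs, hb0, hsb, hb8⟩ := id hb
  obtain ⟨f1, f2, f3⟩ := tr_nj_big_far M hL hR hb hB
  set ξs : E n := (2 * ((M.pos x).2 - (M.pos x').2))⁻¹ • ((M.pos x).1 - (M.pos x').1) with hξs
  have hbR : (0 : ℝ) < b := by exact_mod_cast hb0
  have hb8R : (b : ℝ) < 1 / 8 := by
    have : ((b : ℚ) : ℝ) < ((1 / 8 : ℚ) : ℝ) := by exact_mod_cast hb8
    push_cast at this
    linarith
  refine le_trans (Finset.sum_le_sum_of_subset_of_nonneg ?_ fun T _ _ => M.κ_nonneg 0 x T)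
    (tr_nj_ball hn M hM x ξs (ρ := M.L ^ (-((b : ℝ) / 3))) (α := (b : ℝ) / 3) (by positivity) (by linarith) le_rfl)
  intro T hT
  rw [Finset.mem_filter] at hT ⊢
  obtain ⟨-, ⟨x₀, hx₀, hS⟩, ⟨x₀', hx₀', hS'⟩⟩ := hT
  refine ⟨Finset.mem_univ _, ?_⟩
  exact (tr_nj_far hR (Real.rpow_pos_of_pos hL0 _).le (tr_nj_sc_mono hL.le (by linarith)) f1 f2 hx₀ hx₀' hfar
    (hM.fr_bd 0 T) (hM.inc 0 x₀ T hS.pos) (hM.inc 0 x₀' T hS'.pos)).trans f3

/-- L-TR-NJ-I6 (~150 l., glue) -/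
theorem tr_nj_ok (hn : 2 ≤ n) (M : TModel n) {R₀ c₁ Cτ : ℝ} (hM : M.Ok R₀ c₁ Cτ) (η : ℝ) {s b e : ℚ} (hb : EBlk s b) (he : 0 < e) (he' : e < 1 / 2) (hB : NjBig R₀ M b) :
    (njD M η s b e).Ok (M.L ^ (-((b : ℝ) / 2 - η * b))) (M.L ^ (-c₁ * ((b : ℝ) / 3) + M.ε)) (2 * M.L ^ ((1 / 2 - (e : ℝ)) * b) * (2 * R₀ + 4) ^ n)
      (3 ^ (n + 1) * M.L ^ (2 * η * b)) ((2 * M.L ^ ((e : ℝ) * b)) ^ (n + 1) * M.L ^ (2 * η * b)) := by
  have hL : 1 < M.L := by have := hM.L_ge; linarith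
  have hL0 : 0 < M.L := by linarith
  have hR := tr_nj_R0 M hM
  obtain ⟨hs, hb0, hsb, hb8⟩ := id hb
  have hge : njg s b e ≤ s + b := by unfold njg; nlinarith
  have hpos : ∀ u : ℝ, 0 < M.L ^ u := fun u => Real.rpow_pos_of_pos hL0 u
  have hcard : (0 : ℝ) < (Fintype.card M.π : ℝ) := by exact_mod_cast Fintype.card_pos
  have hsumT : ∀ x : M.π, ∑ T, M.j0 x T = (Fintype.card M.π : ℝ)⁻¹ := by
    intro x
    unfold TModel.j0
    rw [← Finset.mul_sum, M.κ_sum, mul_one]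
  refine
    { j0 := fun x T => mul_nonneg (inv_nonneg.2 (Nat.cast_nonneg _)) (M.κ_nonneg 0 x T)
      j1 := ?_
      zp := fun x x' h => tr_nj_cl_nest M hL.le (by linarith) h
      zg := fun x x' h => tr_nj_cl_nest M hL.le hge h
      zG := fun T x x' h ⟨x₀, hx₀, hS⟩ => ⟨x₀, hx₀.trans h, hS⟩
      zN := ?_
      m0 := (hpos _).le
      k0 := (hpos _).le
      N0 := by have := hpos ((1 / 2 - (e : ℝ)) * b); positivity
      M10 := by have := hpos (2 * η * b); positivity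
      M20 := by have := hpos (2 * η * b); have := hpos ((e : ℝ) * b); positivity
      H1 := fun T x h => by convert tr_nj_H1 M hL.le η hb e T x h <;> rfl
      H2 := fun T c => by convert tr_nj_H2 M hM η hb he he' hB T c <;> rfl
      H3 := fun x => by convert tr_nj_H3 M hL η hb x <;> rfl
      H4 := fun x => by convert tr_nj_H4 M hL η hb he he' x <;> rfl
      H5 := ?_ }
  · change ∑ x, ∑ T, M.j0 x T ≤ 1
    rw [Finset.sum_congr rfl fun x _ => hsumT x, Finset.sum_const, Finset.card_univ, nsmul_eq_mul,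
      mul_inv_cancel₀ hcard.ne']
  · intro x x' y' h hN
    change CAdj (M.cl (s + b / 2) x) (M.cl (s + b / 2) y')
    have h' : M.cl (s + b / 2) x' = M.cl (s + b / 2) y' := tr_nj_cl_nest M hL.le (by linarith) h
    rw [← h']
    exact hN
  · intro x x' hfar
    change ∑ T with NjGd M η s b T x ∧ NjGd M η s b T x', M.j0 x T ≤ _ * ∑ T, M.j0 x T
    rw [hsumT]
    unfold TModel.j0
    rw [← Finset.mul_sum, mul_comm]
    exact mul_le_mul_of_nonneg_right (tr_nj_H5 hn M hM η hb hB x x' hfar) (inv_nonneg.2 hcard.le)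

/-- the bound of the pair count -/
noncomputable def njRhs (n : ℕ) (R₀ c₁ η e b L ε : ℝ) : ℝ :=
  2 * L ^ ((1 / 2 - e) * b) * (2 * R₀ + 4) ^ n *
    (3 ^ (n + 1) * L ^ (2 * η * b) * L ^ (-(b / 2 - η * b)) + (2 * L ^ (e * b)) ^ (n + 1) * L ^ (2 * η * b) * L ^ (-(b / 2 - η * b)) * L ^ (-c₁ * (b / 3) + ε))

/-- **the finite-scale estimate** L-TR-NJ-I6 (~60 l., glue): `tr_nj_trans`, `NjS x T → NjGd T x`, `tr_nj_pairs`, `tr_nj_ok`. -/
theorem tr_nj_one (hn : 2 ≤ n) (M : TModel n) {R₀ c₁ Cτ : ℝ} (hM : M.Ok R₀ c₁ Cτ) (η : ℝ) {s b e : ℚ} (hb : EBlk s b) (he : 0 < e) (he' : e < 1 / 2) (hB : NjBig R₀ M b) :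
    (M.law.pr fun ω => M.sys.vec ω ∈ UNJ η s b) ^ 2 ≤ njRhs n R₀ c₁ η e b M.L M.ε := by
  have hL : 1 < M.L := by have := hM.L_ge; linarith
  have h1 := tr_nj_trans M hL η s b
  have h2 : ∑ x, ∑ T with NjS M η s b x T, M.j0 x T ≤ (njD M η s b e).p := by
    unfold NjP.p
    apply Finset.sum_le_sum
    intro x _
    apply Finset.sum_le_sum_of_subset_of_nonneg
    · intro T hT
      rw [Finset.mem_filter] at hT ⊢
      exact ⟨hT.1, x, rfl, hT.2⟩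
    · intro T _ _
      exact mul_nonneg (inv_nonneg.2 (Nat.cast_nonneg _)) (M.κ_nonneg 0 x T)
  have h3 := tr_nj_pairs _ (tr_nj_ok hn M hM η hb he he' hB)
  have h0 : 0 ≤ M.law.pr fun ω => M.sys.vec ω ∈ UNJ η s b := tr_info_pr_nonneg _ _
  calc _ ≤ (njD M η s b e).p ^ 2 := pow_le_pow_left₀ h0 (h1.trans h2) 2
    _ ≤ _ := h3
    _ = _ := by unfold njRhs; ring

end Claimed.Agent.R257.TR
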