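import Claimed.Agent.R257.TR.NJ.Defs

/-!
# R257 / TR / NJ / Pairs : the abstract pair count      (architect helper53)      PAPER-FREE, Mathlib only (finite sums)
Leaves L-TR-NJ-A1 (`tr_nj_low`), A2 (`tr_nj_near`), A3 (`tr_nj_farsum`); `tr_nj_pairs` is proved from them.   Prove IN PLACE, helper lemmas above your theorem (prefix `tr_nj_a1_` …).
-/

set_option autoImplicit false

namespace Claimed.Agent.R257.TR

open scoped BigOperators
open Classical

variable {π τ ζ γ κ : Type} [Fintype π] [Fintype τ]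

theorem tr_nj_a1_cs {α β : Type} (s : Finset α) (f : α → ℝ) (lab : α → β) :
    (∑ x ∈ s, f x) ^ 2 ≤ ((s.image lab).card : ℝ) * ∑ x ∈ s, ∑ x' ∈ s, if lab x' = lab x then f x * f x' else 0 := by
  have h1 : ∑ x ∈ s, f x = ∑ b ∈ s.image lab, ∑ x ∈ s with lab x = b, f x :=
    (Finset.sum_fiberwise_of_maps_to (fun x hx => Finset.mem_image_of_mem lab hx) f).symm
  have h2 : ∑ x ∈ s, ∑ x' ∈ s, (if lab x' = lab x then f x * f x' else 0)
      = ∑ b ∈ s.image lab, (∑ x ∈ s with lab x = b, f x) ^ 2 := by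
    rw [← Finset.sum_fiberwise_of_maps_to (fun x hx => Finset.mem_image_of_mem lab hx)]
    refine Finset.sum_congr rfl fun b _ => ?_
    rw [sq, Finset.sum_mul_sum]
    refine Finset.sum_congr rfl fun x hx => ?_
    rw [Finset.sum_filter]
    have hb := (Finset.mem_filter.1 hx).2
    refine Finset.sum_congr rfl fun x' _ => ?_
    rw [hb]
  rw [h1, h2]
  exact sq_sum_le_card_mul_sum_sq

omit [Fintype τ] in
/-- partition of a sum by the parent label -/
theorem tr_nj_a1_part (D : NjP π τ ζ γ κ) (F : π → ℝ) :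
    ∑ x, F x = ∑ c ∈ Finset.univ.image D.par, ∑ x, if D.par x = c then F x else 0 := by
  rw [Finset.sum_comm]
  refine Finset.sum_congr rfl fun x _ => ?_
  rw [Finset.sum_ite_eq, if_pos (Finset.mem_image_of_mem _ (Finset.mem_univ x))]

/-- L-TR-NJ-A1 (~250 l.).  **Lower bound** (H (t:pair-lower)).   For `T`, `c ∈ univ.image par`, `k ∈ I(T,c) := image g {x good, par x = c}` put `A(T,c,k) = ∑_{x good, par x = c, g x = k} j x T`; `0 ≤ ∑_k A(T,c,k) ≤ W T c`.
`p = ∑_{(T,c,k)} A`  and  `S = ∑_{(T,c,k)} A²/W`  (expand the square; `A = 0` if `W = 0`).   One Cauchy-Schwarz over the triples (`Finset.sum_sq_le_sum_mul_sum_of_sq_eq_mul` with `f = W`, `g = A²/W`, `r = A`; or `Finset.inner_mul_le_norm_mul_norm`):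
`p² ≤ (∑_{(T,c,k)} W T c) S ≤ N (∑_{T,c} W T c) S ≤ N S`   (`H2`, `j1`: `∑_{T,c} W T c = ∑_x ∑_T j x T`, `Finset.sum_fiberwise`). -/
theorem tr_nj_low (D : NjP π τ ζ γ κ) {m₁ κc N M₁ M₂ : ℝ} (h : D.Ok m₁ κc N M₁ M₂) : D.p ^ 2 ≤ N * D.S fun _ _ => True := by
  set C : Finset γ := Finset.univ.image D.par with hC
  set s : τ → γ → Finset π := fun T c => Finset.univ.filter fun x => D.Gd T x ∧ D.par x = c with hs
  set P : τ → γ → ℝ := fun T c => ∑ x ∈ s T c, D.j x T with hP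
  set Q : τ → γ → ℝ := fun T c => ∑ x ∈ s T c, ∑ x' ∈ s T c, if D.g x' = D.g x then D.j x T * D.j x' T else 0 with hQ
  have hP0 : ∀ T c, 0 ≤ P T c := fun T c => Finset.sum_nonneg fun x _ => h.j0 x T
  have hW0 : ∀ T c, 0 ≤ D.W T c := fun T c => Finset.sum_nonneg fun x _ => h.j0 x T
  have hQ0 : ∀ T c, 0 ≤ Q T c := fun T c => Finset.sum_nonneg fun x _ => Finset.sum_nonneg fun x' _ => by
    split_ifs
    · exact mul_nonneg (h.j0 _ _) (h.j0 _ _)
    · exact le_rfl
  have hPW : ∀ T c, P T c ≤ D.W T c := by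
    intro T c
    refine Finset.sum_le_sum_of_subset_of_nonneg ?_ fun x _ _ => h.j0 x T
    intro x hx
    exact Finset.mem_filter.2 ⟨Finset.mem_univ _, (Finset.mem_filter.1 hx).2.2⟩
  have hcs : ∀ T c, P T c ^ 2 ≤ N * Q T c := by
    intro T c
    refine (tr_nj_a1_cs (s T c) (fun x => D.j x T) D.g).trans ?_
    exact mul_le_mul_of_nonneg_right (h.H2 T c) (hQ0 T c)
  -- (1)
  have hp : D.p = ∑ q ∈ Finset.univ ×ˢ C, P q.1 q.2 := by
    unfold NjP.p
    rw [Finset.sum_product]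
    simp only [Finset.sum_filter]
    rw [Finset.sum_comm]
    refine Finset.sum_congr rfl fun T _ => ?_
    rw [tr_nj_a1_part D]
    refine Finset.sum_congr rfl fun c _ => ?_
    simp only [hP, hs, Finset.sum_filter]
    refine Finset.sum_congr rfl fun x _ => ?_
    by_cases h1 : D.par x = c <;> by_cases h2 : D.Gd T x <;> simp [h1, h2]
  -- (2)
  have hS : (D.S fun _ _ => True) = ∑ q ∈ Finset.univ ×ˢ C, Q q.1 q.2 / D.W q.1 q.2 := by
    unfold NjP.S
    rw [Finset.sum_product]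
    refine Finset.sum_congr rfl fun T _ => ?_
    rw [tr_nj_a1_part D]
    refine Finset.sum_congr rfl fun c _ => ?_
    simp only [hQ, hs, Finset.sum_filter, Finset.sum_div]
    refine Finset.sum_congr rfl fun x _ => ?_
    by_cases h1 : D.par x = c
    · subst h1
      by_cases h2 : D.Gd T x
      · simp only [h2, true_and, and_true, if_true]
        rw [Finset.sum_div]
        refine Finset.sum_congr rfl fun x' _ => ?_
        by_cases h3 : D.Gd T x' <;> by_cases h4 : D.par x' = D.par x <;> by_cases h5 : D.g x' = D.g x <;>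
          simp [h3, h4, h5]
      · simp [h2]
    · simp [h1]
  -- (5)
  have hWsum : ∑ q ∈ Finset.univ ×ˢ C, D.W q.1 q.2 ≤ 1 := by
    rw [Finset.sum_product]
    have e : ∑ x, ∑ T, D.j x T = ∑ T, ∑ x, D.j x T := Finset.sum_comm
    have h1 := h.j1
    rw [e] at h1
    refine le_trans (le_of_eq ?_) h1
    refine Finset.sum_congr rfl fun T _ => ?_
    rw [tr_nj_a1_part D (fun x => D.j x T)]
    refine Finset.sum_congr rfl fun c _ => ?_
    unfold NjP.W
    rw [Finset.sum_filter]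
  -- (6)
  have hT : (∑ q ∈ Finset.univ ×ˢ C, P q.1 q.2) ^ 2
      ≤ (∑ q ∈ Finset.univ ×ˢ C, D.W q.1 q.2) * ∑ q ∈ Finset.univ ×ˢ C, P q.1 q.2 ^ 2 / D.W q.1 q.2 := by
    refine Finset.sum_sq_le_sum_mul_sum_of_sq_le_mul _ (fun q _ => hW0 _ _)
      (fun q _ => div_nonneg (sq_nonneg _) (hW0 _ _)) fun q _ => le_of_eq ?_
    by_cases hw : D.W q.1 q.2 = 0
    · have : P q.1 q.2 = 0 := le_antisymm ((hPW _ _).trans hw.le) (hP0 _ _)
      rw [this, hw]
      simp
    · field_simp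
  have hsum0 : 0 ≤ ∑ q ∈ Finset.univ ×ˢ C, P q.1 q.2 ^ 2 / D.W q.1 q.2 :=
    Finset.sum_nonneg fun q _ => div_nonneg (sq_nonneg _) (hW0 _ _)
  rw [hp, hS, Finset.mul_sum]
  calc _ ≤ (∑ q ∈ Finset.univ ×ˢ C, D.W q.1 q.2) * ∑ q ∈ Finset.univ ×ˢ C, P q.1 q.2 ^ 2 / D.W q.1 q.2 := hT
    _ ≤ 1 * ∑ q ∈ Finset.univ ×ˢ C, P q.1 q.2 ^ 2 / D.W q.1 q.2 := mul_le_mul_of_nonneg_right hWsum hsum0
    _ = ∑ q ∈ Finset.univ ×ˢ C, P q.1 q.2 ^ 2 / D.W q.1 q.2 := one_mul _
    _ ≤ _ := by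
        refine Finset.sum_le_sum fun q _ => ?_
        rw [← mul_div_assoc]
        exact div_le_div_of_nonneg_right (hcs _ _) (hW0 _ _)

theorem tr_nj_a2_fib {α β : Type} (s : Finset α) (lab : α → β) (f : α → ℝ) (c : ℝ)
    (h : ∀ x₁ ∈ s, ∑ x ∈ s with lab x = lab x₁, f x ≤ c) : ∑ x ∈ s, f x ≤ ((s.image lab).card : ℝ) * c := by
  rw [← Finset.sum_fiberwise_of_maps_to (fun x hx => Finset.mem_image_of_mem lab hx)]
  calc _ ≤ ∑ _b ∈ s.image lab, c := by
        refine Finset.sum_le_sum fun b hb => ?_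
        obtain ⟨x₁, hx₁, rfl⟩ := Finset.mem_image.1 hb
        exact h x₁ hx₁
    _ = _ := by rw [Finset.sum_const, nsmul_eq_mul]

/-- L-TR-NJ-A2 (~200 l.).  **Near pairs.**   For fixed `T` and good `x`:  `∑_{x' good with T, near x, par x' = par x} j x' T ≤ ∑_{z' ∈ image z {x' good, near x}} ∑_{x'' : z x'' = z'} j x'' T ≤ M₁ m₁ W T (par x)`
(`Finset.sum_fiberwise_of_maps_to`/`sum_image'`, enlarge each fibre: terms `≥ 0`; `H1` at a representative `x'` of `z'`, `par x' = par x`; `H3`).   Divide by `W` (`W = 0`: every term is `0`).   Then `∑_T ∑_x j x T ≤ 1`. -/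
theorem tr_nj_near (D : NjP π τ ζ γ κ) {m₁ κc N M₁ M₂ : ℝ} (h : D.Ok m₁ κc N M₁ M₂) : D.S D.Near ≤ M₁ * m₁ := by
  have hW0 : ∀ T c, 0 ≤ D.W T c := fun T c => Finset.sum_nonneg fun x _ => h.j0 x T
  have key : ∀ T x, ∑ x', (if D.Gd T x ∧ D.Gd T x' ∧ D.par x' = D.par x ∧ D.g x' = D.g x ∧ D.Near x x'
      then D.j x T * D.j x' T / D.W T (D.par x) else 0) ≤ D.j x T * (M₁ * m₁) := by
    intro T x
    have hr0 : 0 ≤ D.j x T * (M₁ * m₁) := mul_nonneg (h.j0 x T) (mul_nonneg h.M10 h.m0)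
    by_cases hG : D.Gd T x
    swap
    · simp only [hG, false_and, if_false, Finset.sum_const_zero]
      exact hr0
    set B : Finset π := Finset.univ.filter fun x' => D.Gd T x' ∧ D.par x' = D.par x ∧ D.g x' = D.g x ∧ D.Near x x' with hB
    have e1 : ∑ x', (if D.Gd T x ∧ D.Gd T x' ∧ D.par x' = D.par x ∧ D.g x' = D.g x ∧ D.Near x x'
        then D.j x T * D.j x' T / D.W T (D.par x) else 0) = D.j x T * (∑ x' ∈ B, D.j x' T) / D.W T (D.par x) := by
      rw [hB, Finset.sum_filter, Finset.mul_sum, Finset.sum_div]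
      refine Finset.sum_congr rfl fun x' _ => ?_
      simp only [hG, true_and]
      split_ifs <;> simp
    have hI : ∑ x' ∈ B, D.j x' T ≤ M₁ * (m₁ * D.W T (D.par x)) := by
      have hc0 : 0 ≤ m₁ * D.W T (D.par x) := mul_nonneg h.m0 (hW0 _ _)
      refine (tr_nj_a2_fib B D.z (fun x' => D.j x' T) (m₁ * D.W T (D.par x)) ?_).trans
        (mul_le_mul_of_nonneg_right ?_ hc0)
      · intro x₁ hx₁
        obtain ⟨-, hG₁, hp₁, -, -⟩ := Finset.mem_filter.1 hx₁
        rw [← hp₁]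
        refine le_trans ?_ (h.H1 T x₁ hG₁)
        exact Finset.sum_le_sum_of_subset_of_nonneg (Finset.filter_subset_filter _ (Finset.subset_univ _))
          fun x' _ _ => h.j0 x' T
      · refine le_trans ?_ (h.H3 x)
        have : (B.image D.z).card ≤ ((Finset.univ.filter fun x' => (∃ T, D.Gd T x') ∧ D.Near x x').image D.z).card := by
          refine Finset.card_le_card (Finset.image_subset_image fun x' hx' => ?_)
          obtain ⟨-, hG', -, -, hN'⟩ := Finset.mem_filter.1 hx'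
          exact Finset.mem_filter.2 ⟨Finset.mem_univ _, ⟨T, hG'⟩, hN'⟩
        exact_mod_cast this
    rw [e1]
    by_cases hw : D.W T (D.par x) = 0
    · rw [hw, div_zero]
      exact hr0
    · have hwp : 0 < D.W T (D.par x) := lt_of_le_of_ne (hW0 _ _) (Ne.symm hw)
      rw [div_le_iff₀ hwp]
      calc D.j x T * ∑ x' ∈ B, D.j x' T ≤ D.j x T * (M₁ * (m₁ * D.W T (D.par x))) :=
            mul_le_mul_of_nonneg_left hI (h.j0 x T)
        _ = _ := by ring
  unfold NjP.S
  calc _ ≤ ∑ T, ∑ x, D.j x T * (M₁ * m₁) := Finset.sum_le_sum fun T _ => Finset.sum_le_sum fun x _ => key T x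
    _ = (∑ x, ∑ T, D.j x T) * (M₁ * m₁) := by
        rw [Finset.sum_comm]
        simp only [Finset.sum_mul]
    _ ≤ 1 * (M₁ * m₁) := mul_le_mul_of_nonneg_right h.j1 (mul_nonneg h.M10 h.m0)
    _ = _ := one_mul _

/-- L-TR-NJ-A3 (~250 l.).  **Far pairs.**   Exchange the sums: `∑_x ∑_{x' far, g x' = g x, …} ∑_{T good with x and x'} j x T · j x' T / W`.   Group `x'` by `z' = z x'` (goodness, farness, `g`, `par` depend on `x'` only through `z x'`: `zG`, `zN`, `zg`, `zp`):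
`∑_{x'' : z x'' = z'} j x'' T / W T (par x) ≤ m₁` (`H1`), so the sum is `≤ m₁ ∑_x ∑_{z' ∈ image z {x' good, g x' = g x}} ∑_{T good with x, x'_{z'}} j x T ≤ m₁ ∑_x M₂ κc ∑_T j x T ≤ m₁ M₂ κc`   (`H5`, `H4`, `j1`). -/
theorem tr_nj_farsum (D : NjP π τ ζ γ κ) {m₁ κc N M₁ M₂ : ℝ} (h : D.Ok m₁ κc N M₁ M₂) : (D.S fun x x' => ¬ D.Near x x') ≤ M₂ * m₁ * κc := by
  have hW0 : ∀ T c, 0 ≤ D.W T c := fun T c => Finset.sum_nonneg fun x _ => h.j0 x T
  have key : ∀ x, ∑ x', ∑ T, (if D.Gd T x ∧ D.Gd T x' ∧ D.par x' = D.par x ∧ D.g x' = D.g x ∧ ¬ D.Near x x'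
      then D.j x T * D.j x' T / D.W T (D.par x) else 0) ≤ M₂ * (m₁ * (κc * ∑ T, D.j x T)) := by
    intro x
    set G : π → ℝ := fun x' => ∑ T, (if D.Gd T x ∧ D.Gd T x' ∧ D.par x' = D.par x ∧ D.g x' = D.g x ∧ ¬ D.Near x x'
      then D.j x T * D.j x' T / D.W T (D.par x) else 0) with hG
    set B : Finset π := Finset.univ.filter fun x' => (∃ T, D.Gd T x') ∧ D.g x' = D.g x ∧ D.par x' = D.par x ∧ ¬ D.Near x x' with hB
    have hout : ∀ x', x' ∉ B → G x' = 0 := by
      intro x' hx'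
      refine Finset.sum_eq_zero fun T _ => if_neg ?_
      rintro ⟨-, h2, h3, h4, h5⟩
      exact hx' (Finset.mem_filter.2 ⟨Finset.mem_univ _, ⟨T, h2⟩, h4, h3, h5⟩)
    have e1 : ∑ x', G x' = ∑ x' ∈ B, G x' :=
      (Finset.sum_subset (Finset.subset_univ B) fun x' _ hx' => hout x' hx').symm
    rw [e1]
    have hj0 : 0 ≤ ∑ T, D.j x T := Finset.sum_nonneg fun T _ => h.j0 x T
    have hc0 : 0 ≤ m₁ * (κc * ∑ T, D.j x T) := mul_nonneg h.m0 (mul_nonneg h.k0 hj0)
    refine (tr_nj_a2_fib B D.z G _ ?_).trans (mul_le_mul_of_nonneg_right ?_ hc0)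
    · intro x₁ hx₁
      obtain ⟨-, -, hg₁, hp₁, hN₁⟩ := Finset.mem_filter.1 hx₁
      simp only [hG]
      rw [Finset.sum_comm]
      have hT : ∀ T, ∑ x' ∈ B with D.z x' = D.z x₁,
          (if D.Gd T x ∧ D.Gd T x' ∧ D.par x' = D.par x ∧ D.g x' = D.g x ∧ ¬ D.Near x x'
            then D.j x T * D.j x' T / D.W T (D.par x) else 0)
          ≤ if D.Gd T x ∧ D.Gd T x₁ then D.j x T * m₁ else 0 := by
        intro T
        by_cases hc : D.Gd T x ∧ D.Gd T x₁
        · rw [if_pos hc]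
          have hI : ∑ x' ∈ B with D.z x' = D.z x₁, D.j x' T ≤ m₁ * D.W T (D.par x) := by
            rw [← hp₁]
            refine le_trans ?_ (h.H1 T x₁ hc.2)
            exact Finset.sum_le_sum_of_subset_of_nonneg (Finset.filter_subset_filter _ (Finset.subset_univ _))
              fun x' _ _ => h.j0 x' T
          calc _ ≤ ∑ x' ∈ B with D.z x' = D.z x₁, D.j x T * D.j x' T / D.W T (D.par x) := by
                refine Finset.sum_le_sum fun x' _ => ?_
                split_ifs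
                · exact le_rfl
                · exact div_nonneg (mul_nonneg (h.j0 _ _) (h.j0 _ _)) (hW0 _ _)
            _ = D.j x T * (∑ x' ∈ B with D.z x' = D.z x₁, D.j x' T) / D.W T (D.par x) := by
                rw [Finset.mul_sum, Finset.sum_div]
            _ ≤ D.j x T * m₁ := by
                by_cases hw : D.W T (D.par x) = 0
                · rw [hw, div_zero]
                  exact mul_nonneg (h.j0 _ _) h.m0
                · have hwp : 0 < D.W T (D.par x) := lt_of_le_of_ne (hW0 _ _) (Ne.symm hw)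
                  rw [div_le_iff₀ hwp, mul_assoc]
                  exact mul_le_mul_of_nonneg_left hI (h.j0 x T)
        · rw [if_neg hc]
          refine le_of_eq (Finset.sum_eq_zero fun x' hx' => if_neg ?_)
          rintro ⟨h1, h2, -⟩
          have hz := (Finset.mem_filter.1 hx').2
          exact hc ⟨h1, h.zG T x' x₁ hz h2⟩
      calc _ ≤ ∑ T, (if D.Gd T x ∧ D.Gd T x₁ then D.j x T * m₁ else 0) := Finset.sum_le_sum fun T _ => hT T
        _ = (∑ T with D.Gd T x ∧ D.Gd T x₁, D.j x T) * m₁ := by rw [Finset.sum_mul, Finset.sum_filter]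
        _ ≤ (κc * ∑ T, D.j x T) * m₁ := mul_le_mul_of_nonneg_right (h.H5 x x₁ hN₁) h.m0
        _ = _ := by ring
    · refine le_trans ?_ (h.H4 x)
      have : (B.image D.z).card ≤ ((Finset.univ.filter fun x' => (∃ T, D.Gd T x') ∧ D.g x' = D.g x).image D.z).card := by
        refine Finset.card_le_card (Finset.image_subset_image fun x' hx' => ?_)
        obtain ⟨-, hG', hg', -, -⟩ := Finset.mem_filter.1 hx'
        exact Finset.mem_filter.2 ⟨Finset.mem_univ _, hG', hg'⟩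
      exact_mod_cast this
  have hS : (D.S fun x x' => ¬ D.Near x x') = ∑ T, ∑ x, ∑ x',
      (if D.Gd T x ∧ D.Gd T x' ∧ D.par x' = D.par x ∧ D.g x' = D.g x ∧ ¬ D.Near x x'
        then D.j x T * D.j x' T / D.W T (D.par x) else 0) := by
    unfold NjP.S
    refine Finset.sum_congr rfl fun T _ => Finset.sum_congr rfl fun x _ => Finset.sum_congr rfl fun x' _ => ?_
    congr
  rw [hS, Finset.sum_comm]
  calc _ = ∑ x, ∑ x', ∑ T, (if D.Gd T x ∧ D.Gd T x' ∧ D.par x' = D.par x ∧ D.g x' = D.g x ∧ ¬ D.Near x x'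
      then D.j x T * D.j x' T / D.W T (D.par x) else 0) := Finset.sum_congr rfl fun x _ => Finset.sum_comm
    _ ≤ ∑ x, M₂ * (m₁ * (κc * ∑ T, D.j x T)) := Finset.sum_le_sum fun x _ => key x
    _ = M₂ * m₁ * κc * ∑ x, ∑ T, D.j x T := by
        rw [Finset.mul_sum]
        refine Finset.sum_congr rfl fun x _ => ?_
        ring
    _ ≤ M₂ * m₁ * κc * 1 :=
        mul_le_mul_of_nonneg_left h.j1 (mul_nonneg (mul_nonneg h.M20 h.m0) h.k0)
    _ = _ := mul_one _

/-- splitting of the pair sum -/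
theorem tr_nj_split (D : NjP π τ ζ γ κ) : (D.S fun _ _ => True) = D.S D.Near + D.S fun x x' => ¬ D.Near x x' := by
  unfold NjP.S
  simp only [← Finset.sum_add_distrib]
  refine Finset.sum_congr rfl fun T _ => Finset.sum_congr rfl fun x _ => Finset.sum_congr rfl fun x' _ => ?_
  by_cases hN : D.Near x x'
  · simp [hN]
  · simp [hN]

/-- **the abstract pair count** -/
theorem tr_nj_pairs (D : NjP π τ ζ γ κ) {m₁ κc N M₁ M₂ : ℝ} (h : D.Ok m₁ κc N M₁ M₂) : D.p ^ 2 ≤ N * (M₁ * m₁ + M₂ * m₁ * κc) := by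
  refine (tr_nj_low D h).trans (mul_le_mul_of_nonneg_left ?_ h.N0)
  rw [tr_nj_split]
  exact add_le_add (tr_nj_near D h) (tr_nj_farsum D h)

end Claimed.Agent.R257.TR
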